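import Vale.Agent.P358.Defs

/-!
The recursion of tensor powers in block form, traces and populations.
-/

namespace Vale.Agent.P358

open Matrix
open scoped ComplexOrder Matrix

/-- Split the first qubit. -/
def consE (n : ℕ) : Cfg n ⊕ Cfg n ≃ Cfg (n + 1) where
  toFun := Sum.elim (fun s => Fin.cons 0 s) (fun s => Fin.cons 1 s)
  invFun σ := if σ 0 = 0 then Sum.inl (Fin.tail σ) else Sum.inr (Fin.tail σ)
  left_inv x := by rcases x with s | s <;> simp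
  right_inv σ := by
    by_cases h : σ 0 = 0
    · simp only [if_pos h, Sum.elim_inl]; rw [← h]; exact Fin.cons_self_tail σ
    · have h1 : σ 0 = 1 := by omega
      simp only [if_neg h, Sum.elim_inr]; rw [← h1]; exact Fin.cons_self_tail σ

/-- A matrix on n+1 qubits seen in blocks of the first qubit. -/
def blockForm {n : ℕ} (ρ : Matrix (Cfg (n + 1)) (Cfg (n + 1)) ℂ) :
    Matrix (Cfg n ⊕ Cfg n) (Cfg n ⊕ Cfg n) ℂ := ρ.submatrix (consE n) (consE n)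

lemma blockForm_mul {n : ℕ} (P Q : Matrix (Cfg (n + 1)) (Cfg (n + 1)) ℂ) :
    blockForm (P * Q) = blockForm P * blockForm Q :=
  (Matrix.submatrix_mul_equiv P Q _ (consE n) _).symm

/-- The four blocks. -/
def blk00 {n : ℕ} (ρ : Matrix (Cfg (n + 1)) (Cfg (n + 1)) ℂ) := (blockForm ρ).toBlocks₁₁
def blk01 {n : ℕ} (ρ : Matrix (Cfg (n + 1)) (Cfg (n + 1)) ℂ) := (blockForm ρ).toBlocks₁₂
def blk10 {n : ℕ} (ρ : Matrix (Cfg (n + 1)) (Cfg (n + 1)) ℂ) := (blockForm ρ).toBlocks₂₁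
def blk11 {n : ℕ} (ρ : Matrix (Cfg (n + 1)) (Cfg (n + 1)) ℂ) := (blockForm ρ).toBlocks₂₂

lemma tensor_cons {n : ℕ} (k : Matrix (Fin 2) (Fin 2) ℂ) (K : Fin n → Matrix (Fin 2) (Fin 2) ℂ) :
    blockForm (tensorMat (Fin.cons k K : Fin (n + 1) → Matrix (Fin 2) (Fin 2) ℂ))
      = fromBlocks (k 0 0 • tensorMat K) (k 0 1 • tensorMat K) (k 1 0 • tensorMat K)
          (k 1 1 • tensorMat K) := by
  ext i j
  rcases i with i | i <;> rcases j with j | j <;>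
    simp [blockForm, tensorMat, consE, Fin.prod_univ_succ]

variable {γ ν : ℝ}

lemma gadcPow_blockForm (hγ0 : 0 ≤ γ) (hγ1 : γ ≤ 1) (hν0 : 0 ≤ ν) (hν1 : ν ≤ 1) (n : ℕ)
    (ρ : Matrix (Cfg (n + 1)) (Cfg (n + 1)) ℂ) :
    blockForm (gadcPow γ ν (n + 1) ρ) = fromBlocks
      (((1 - γ * ν : ℝ) : ℂ) • gadcPow γ ν n (blk00 ρ)
        + ((γ * (1 - ν) : ℝ) : ℂ) • gadcPow γ ν n (blk11 ρ))
      (((Real.sqrt (1 - γ) : ℝ) : ℂ) • gadcPow γ ν n (blk01 ρ))
      (((Real.sqrt (1 - γ) : ℝ) : ℂ) • gadcPow γ ν n (blk10 ρ))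
      (((γ * ν : ℝ) : ℂ) • gadcPow γ ν n (blk00 ρ)
        + ((1 - γ * (1 - ν) : ℝ) : ℂ) • gadcPow γ ν n (blk11 ρ)) := by
  set p : ℂ := ((Real.sqrt (1 - ν) : ℝ) : ℂ) with hp
  set q : ℂ := ((Real.sqrt ν : ℝ) : ℂ) with hq
  set l : ℂ := ((Real.sqrt (1 - γ) : ℝ) : ℂ) with hl
  set g : ℂ := ((Real.sqrt γ : ℝ) : ℂ) with hg
  have hpp : p * p = ((1 - ν : ℝ) : ℂ) := by
    rw [hp, ← Complex.ofReal_mul, Real.mul_self_sqrt (by linarith)]
  have hqq : q * q = (ν : ℂ) := by rw [hq, ← Complex.ofReal_mul, Real.mul_self_sqrt hν0]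
  have hll : l * l = ((1 - γ : ℝ) : ℂ) := by
    rw [hl, ← Complex.ofReal_mul, Real.mul_self_sqrt (by linarith)]
  have hgg : g * g = (γ : ℂ) := by rw [hg, ← Complex.ofReal_mul, Real.mul_self_sqrt hγ0]
  have hs : star p = p ∧ star q = q ∧ star l = l ∧ star g = g := by simp [hp, hq, hl, hg]
  obtain ⟨sp, sq, sl, sg⟩ := hs
  have hcons : ∀ (k : Fin 4) (f : Fin n → Fin 4),
      (fun i => kraus γ ν ((Fin.cons k f : Fin (n + 1) → Fin 4) i))
        = (Fin.cons (kraus γ ν k) (fun i => kraus γ ν (f i)) :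
            Fin (n + 1) → Matrix (Fin 2) (Fin 2) ℂ) := by
    intro k f; funext i; refine Fin.cases ?_ (fun j => ?_) i <;> simp
  have hρ : blockForm ρ = fromBlocks (blk00 ρ) (blk01 ρ) (blk10 ρ) (blk11 ρ) :=
    (fromBlocks_toBlocks _).symm
  have e : ∀ f : Fin n → Fin 4,
      ∑ k, blockForm (tensorMat (fun i => kraus γ ν ((Fin.cons k f : Fin (n + 1) → Fin 4) i)) * ρ
        * (tensorMat (fun i => kraus γ ν ((Fin.cons k f : Fin (n + 1) → Fin 4) i)))ᴴ)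
      = (let W := fun X => tensorMat (fun i => kraus γ ν (f i)) * X
            * (tensorMat (fun i => kraus γ ν (f i)))ᴴ
         fromBlocks (((1 - γ * ν : ℝ) : ℂ) • W (blk00 ρ) + ((γ * (1 - ν) : ℝ) : ℂ) • W (blk11 ρ))
          (l • W (blk01 ρ)) (l • W (blk10 ρ))
          (((γ * ν : ℝ) : ℂ) • W (blk00 ρ) + ((1 - γ * (1 - ν) : ℝ) : ℂ) • W (blk11 ρ))) := by
    intro f
    have hct : ∀ T : Matrix (Cfg (n + 1)) (Cfg (n + 1)) ℂ, blockForm Tᴴ = (blockForm T)ᴴ :=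
      fun T => by simp [blockForm, Matrix.conjTranspose_submatrix]
    simp only [hcons, blockForm_mul, hct, hρ, tensor_cons, Fin.sum_univ_four]
    set K := tensorMat (fun i => kraus γ ν (f i))
    simp [kraus, fromBlocks_conjTranspose, fromBlocks_multiply, fromBlocks_add, smul_smul,
      ← hp, ← hq, ← hl, ← hg, sp, sq, sl, sg]
    refine ⟨?_, ?_, ?_, ?_⟩ <;> match_scalars <;>
      push_cast at hpp hqq hll hgg ⊢ <;>
      first
      | linear_combination hpp + (l * l) * hqq + (ν : ℂ) * hll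
      | linear_combination (g * g) * hpp + (1 - (ν : ℂ)) * hgg
      | linear_combination (g * g) * hqq + (ν : ℂ) * hgg
      | linear_combination (l * l) * hpp + hqq + (1 - (ν : ℂ)) * hll
      | linear_combination l * hpp + l * hqq
  have hsum : blockForm (gadcPow γ ν (n + 1) ρ)
      = ∑ f : Fin n → Fin 4, ∑ k, blockForm (tensorMat
          (fun i => kraus γ ν ((Fin.cons k f : Fin (n + 1) → Fin 4) i)) * ρ
          * (tensorMat (fun i => kraus γ ν ((Fin.cons k f : Fin (n + 1) → Fin 4) i)))ᴴ) := by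
    rw [gadcPow, ← (Fin.consEquiv (fun _ : Fin (n + 1) => Fin 4)).sum_comp, Fintype.sum_prod_type,
      Finset.sum_comm]
    simp only [Fin.consEquiv_apply]
    ext i j
    simp [blockForm, Matrix.sum_apply]
  rw [hsum]
  simp only [e]
  ext i j
  rcases i with i | i <;> rcases j with j | j <;>
    simp [gadcPow, Matrix.sum_apply, Finset.mul_sum, Finset.sum_add_distrib]

lemma blk00_posSemidef {n : ℕ} {ρ : Matrix (Cfg (n + 1)) (Cfg (n + 1)) ℂ} (h : ρ.PosSemidef) :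
    (blk00 ρ).PosSemidef := h.submatrix (consE n ∘ Sum.inl)

lemma blk11_posSemidef {n : ℕ} {ρ : Matrix (Cfg (n + 1)) (Cfg (n + 1)) ℂ} (h : ρ.PosSemidef) :
    (blk11 ρ).PosSemidef := h.submatrix (consE n ∘ Sum.inr)

lemma trace_blockForm {n : ℕ} (ρ : Matrix (Cfg (n + 1)) (Cfg (n + 1)) ℂ) :
    ρ.trace = (blk00 ρ).trace + (blk11 ρ).trace := by
  simp only [Matrix.trace, Matrix.diag]
  rw [← (consE n).sum_comp, Fintype.sum_sum_type]
  rfl

/-- Population of |1> on site i. -/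
noncomputable def pop {n : ℕ} (i : Fin n) (ρ : Matrix (Cfg n) (Cfg n) ℂ) : ℝ :=
  ∑ σ, if σ i = 1 then (ρ σ σ).re else 0

lemma pop_zero {n : ℕ} (ρ : Matrix (Cfg (n + 1)) (Cfg (n + 1)) ℂ) :
    pop 0 ρ = (blk11 ρ).trace.re := by
  rw [pop, ← (consE n).sum_comp, Fintype.sum_sum_type]
  simp [consE, blk11, blockForm, Matrix.trace, toBlocks₂₂]

lemma pop_succ {n : ℕ} (i : Fin n) (ρ : Matrix (Cfg (n + 1)) (Cfg (n + 1)) ℂ) :
    pop i.succ ρ = pop i (blk00 ρ) + pop i (blk11 ρ) := by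
  rw [pop, ← (consE n).sum_comp, Fintype.sum_sum_type]
  simp [pop, consE, blk00, blk11, blockForm, toBlocks₁₁, toBlocks₂₂]

lemma pop_add {n : ℕ} (i : Fin n) (ρ τ : Matrix (Cfg n) (Cfg n) ℂ) :
    pop i (ρ + τ) = pop i ρ + pop i τ := by
  simp only [pop, ← Finset.sum_add_distrib]
  refine Finset.sum_congr rfl fun σ _ => ?_
  split_ifs <;> simp

lemma pop_smul {n : ℕ} (i : Fin n) (c : ℝ) (ρ : Matrix (Cfg n) (Cfg n) ℂ) :
    pop i ((c : ℂ) • ρ) = c * pop i ρ := by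
  simp only [pop, Finset.mul_sum]
  refine Finset.sum_congr rfl fun σ _ => ?_
  split_ifs <;> simp

lemma gadcPow_zero (ρ : Matrix (Cfg 0) (Cfg 0) ℂ) : gadcPow γ ν 0 ρ = ρ := by
  have : ∀ K : Fin 0 → Matrix (Fin 2) (Fin 2) ℂ, tensorMat K = 1 := fun K => by
    ext σ τ
    obtain rfl := Subsingleton.elim σ τ
    simp [tensorMat]
  simp [gadcPow, this]

lemma gadcPow_trace (hγ0 : 0 ≤ γ) (hγ1 : γ ≤ 1) (hν0 : 0 ≤ ν) (hν1 : ν ≤ 1) :
    ∀ (n : ℕ) (ρ : Matrix (Cfg n) (Cfg n) ℂ), (gadcPow γ ν n ρ).trace = ρ.trace := by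
  intro n
  induction n with
  | zero => intro ρ; rw [gadcPow_zero]
  | succ n ih =>
    intro ρ
    have h := gadcPow_blockForm hγ0 hγ1 hν0 hν1 n ρ
    rw [trace_blockForm, trace_blockForm ρ, blk00, blk11, h, toBlocks_fromBlocks₁₁,
      toBlocks_fromBlocks₂₂]
    simp only [trace_add, trace_smul, ih, smul_eq_mul]
    push_cast
    ring

lemma gadcPow_posSemidef {n : ℕ} {ρ : Matrix (Cfg n) (Cfg n) ℂ} (h : ρ.PosSemidef) :
    (gadcPow γ ν n ρ).PosSemidef :=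
  posSemidef_sum _ fun f _ => h.mul_mul_conjTranspose_same _

lemma gadcPow_pop (hγ0 : 0 ≤ γ) (hγ1 : γ ≤ 1) (hν0 : 0 ≤ ν) (hν1 : ν ≤ 1) :
    ∀ (n : ℕ) (ρ : Matrix (Cfg n) (Cfg n) ℂ) (i : Fin n),
      pop i (gadcPow γ ν n ρ) = (1 - γ) * pop i ρ + γ * ν * ρ.trace.re := by
  intro n
  induction n with
  | zero => intro ρ i; exact i.elim0
  | succ n ih =>
    intro ρ i
    have h := gadcPow_blockForm hγ0 hγ1 hν0 hν1 n ρ
    have ht := gadcPow_trace hγ0 hγ1 hν0 hν1 n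
    rw [trace_blockForm ρ]
    refine Fin.cases ?_ (fun j => ?_) i
    · rw [pop_zero, pop_zero, blk11, h, toBlocks_fromBlocks₂₂]
      simp [ht, blk11]
      ring
    · rw [pop_succ, pop_succ]
      have h0 : blk00 (gadcPow γ ν (n + 1) ρ)
          = ((1 - γ * ν : ℝ) : ℂ) • gadcPow γ ν n (blk00 ρ)
            + ((γ * (1 - ν) : ℝ) : ℂ) • gadcPow γ ν n (blk11 ρ) := by
        rw [blk00, h, toBlocks_fromBlocks₁₁]
      have h1 : blk11 (gadcPow γ ν (n + 1) ρ)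
          = ((γ * ν : ℝ) : ℂ) • gadcPow γ ν n (blk00 ρ)
            + ((1 - γ * (1 - ν) : ℝ) : ℂ) • gadcPow γ ν n (blk11 ρ) := by
        rw [blk11, h, toBlocks_fromBlocks₂₂]
      rw [h0, h1, pop_add, pop_add, pop_smul, pop_smul,
        pop_smul, pop_smul, ih, ih, Complex.add_re]
      ring

end Vale.Agent.P358
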