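import Vale.Agent.P358.Blocks

/-!
Additivity of the Holevo capacity from the one-site inequality with memory.
-/

namespace Vale.Agent.P358

open Matrix Real
open scoped ComplexOrder Matrix

/-- Excited population of the output. -/
noncomputable def tOut (γ ν q : ℝ) : ℝ := (1 - γ) * q + γ * ν

/-- Determinant of the output of a pure state with excited population q. -/
noncomputable def outDet (γ ν q : ℝ) : ℝ :=
  tOut γ ν q * (1 - tOut γ ν q) - (1 - γ) * (q * (1 - q))

/-- Output entropy (nats) of a pure state with excited population q. -/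
noncomputable def gOut (γ ν q : ℝ) : ℝ :=
  Real.binEntropy ((1 + Real.sqrt (1 - 4 * outDet γ ν q)) / 2)

/-- The objective of the one-use optimisation (nats). -/
noncomputable def capFun (γ ν q : ℝ) : ℝ := Real.binEntropy (tOut γ ν q) - gOut γ ν q

/-- The one-site inequality with memory. -/
def KeyHyp (γ ν : ℝ) : Prop :=
  ∀ (n : ℕ) (A C B : Matrix (Cfg n) (Cfg n) ℂ), (fromBlocks A C Cᴴ B).PosSemidef →
    eSum A + eSum B
      + ((A.trace.re + B.trace.re) * gOut γ ν (B.trace.re / (A.trace.re + B.trace.re))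
        + negMulLog (A.trace.re + B.trace.re) - negMulLog A.trace.re - negMulLog B.trace.re)
      ≤ eSum (fromBlocks (((1 - γ * ν : ℝ) : ℂ) • A + ((γ * (1 - ν) : ℝ) : ℂ) • B)
          (((Real.sqrt (1 - γ) : ℝ) : ℂ) • C) (((Real.sqrt (1 - γ) : ℝ) : ℂ) • Cᴴ)
          (((γ * ν : ℝ) : ℂ) • A + ((1 - γ * (1 - ν) : ℝ) : ℂ) • B))

lemma combine_convex {f : ℝ → ℝ} (hf : ConvexOn ℝ (Set.Icc 0 1) f) {a b p q : ℝ}
    (ha : 0 ≤ a) (hap : a ≤ p) (hb : 0 ≤ b) (hbq : b ≤ q) :
    (p + q) * f ((a + b) / (p + q)) ≤ p * f (a / p) + q * f (b / q) := by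
  have hp : 0 ≤ p := ha.trans hap
  have hq : 0 ≤ q := hb.trans hbq
  rcases eq_or_lt_of_le (add_nonneg hp hq) with h | h
  · have : p = 0 ∧ q = 0 := ⟨by linarith, by linarith⟩
    simp [this.1, this.2]
  have m1 : a / p ∈ Set.Icc (0 : ℝ) 1 := ⟨div_nonneg ha hp, div_le_one_of_le₀ hap hp⟩
  have m2 : b / q ∈ Set.Icc (0 : ℝ) 1 := ⟨div_nonneg hb hq, div_le_one_of_le₀ hbq hq⟩
  have hc := hf.2 m1 m2 (div_nonneg hp h.le) (div_nonneg hq h.le)
    (by rw [← add_div, div_self h.ne'])
  simp only [smul_eq_mul] at hc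
  have e1 : p * (a / p) = a := by
    rcases eq_or_lt_of_le hp with h' | h'
    · have : a = 0 := by linarith
      simp [this]
    · rw [mul_div_cancel₀ _ h'.ne']
  have e2 : q * (b / q) = b := by
    rcases eq_or_lt_of_le hq with h' | h'
    · have : b = 0 := by linarith
      simp [this]
    · rw [mul_div_cancel₀ _ h'.ne']
  have e : p / (p + q) * (a / p) + q / (p + q) * (b / q) = (a + b) / (p + q) := by
    rw [div_mul_eq_mul_div, div_mul_eq_mul_div, e1, e2, ← add_div]
  rw [e] at hc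
  refine (mul_le_mul_of_nonneg_left hc h.le).trans (le_of_eq ?_)
  field_simp

lemma entropy_split {p q : ℝ} (hp : 0 ≤ p) (hq : 0 ≤ q) :
    negMulLog p + negMulLog q = negMulLog (p + q) + (p + q) * binEntropy (q / (p + q)) := by
  rcases eq_or_lt_of_le (add_nonneg hp hq) with h | h
  · have : p = 0 ∧ q = 0 := ⟨by linarith, by linarith⟩
    simp [this.1, this.2]
  rw [binEntropy_eq_negMulLog_add_negMulLog_one_sub]
  have e : 1 - q / (p + q) = p / (p + q) := by field_simp; ring
  rw [e]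
  have hp' := negMulLog_mul (p + q) (p / (p + q))
  have hq' := negMulLog_mul (p + q) (q / (p + q))
  rw [mul_div_cancel₀ _ h.ne'] at hp' hq'
  have e2 : p / (p + q) + q / (p + q) = 1 := by rw [← add_div, div_self h.ne']
  linear_combination hp' + hq' + negMulLog (p + q) * e2

lemma pop_bounds {n : ℕ} (i : Fin n) {ρ : Matrix (Cfg n) (Cfg n) ℂ} (h : ρ.PosSemidef) :
    0 ≤ pop i ρ ∧ pop i ρ ≤ ρ.trace.re := by
  have hd : ∀ σ, 0 ≤ (ρ σ σ).re := fun σ => (Complex.nonneg_iff.1 h.diag_nonneg).1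
  constructor
  · exact Finset.sum_nonneg fun σ _ => by split_ifs <;> simp [hd σ]
  · rw [Matrix.trace, Complex.re_sum]
    exact Finset.sum_le_sum fun σ _ => by
      split_ifs
      · exact le_rfl
      · exact hd σ

lemma eSum_single {ι : Type*} [Fintype ι] [DecidableEq ι] [Unique ι] {ρ : Matrix ι ι ℂ}
    (h : ρ.IsHermitian) : eSum ρ = negMulLog ρ.trace.re := by
  have e : ρ = diagonal fun _ => ((ρ.trace.re : ℝ) : ℂ) := by
    ext i j
    obtain rfl := Subsingleton.elim i j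
    have him : (ρ i i).im = 0 := by
      have := congrFun (congrFun h.eq i) i
      rw [conjTranspose_apply, Complex.star_def] at this
      exact Complex.conj_eq_iff_im.1 this
    simp [Matrix.trace, Subsingleton.elim (default : ι) i]
    exact Complex.ext rfl (by simp [him])
  conv_lhs => rw [e]
  rw [eSum_diagonal]
  simp

variable {γ ν : ℝ}

lemma blocks_image_posSemidef {n : ℕ} {ρ : Matrix (Cfg (n + 1)) (Cfg (n + 1)) ℂ}
    (h : ρ.PosSemidef) :
    (fromBlocks (gadcPow γ ν n (blk00 ρ)) (gadcPow γ ν n (blk01 ρ))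
      (gadcPow γ ν n (blk01 ρ))ᴴ (gadcPow γ ν n (blk11 ρ))).PosSemidef ∧
    (gadcPow γ ν n (blk01 ρ))ᴴ = gadcPow γ ν n (blk10 ρ) := by
  have hb : (blockForm ρ).PosSemidef := h.submatrix _
  have h10 : (blk01 ρ)ᴴ = blk10 ρ := by
    ext i j
    have := congrFun (congrFun hb.isHermitian.eq (Sum.inr i)) (Sum.inl j)
    simpa [blk01, blk10, toBlocks₁₂, toBlocks₂₁] using this
  have e10 : (gadcPow γ ν n (blk01 ρ))ᴴ = gadcPow γ ν n (blk10 ρ) := by
    simp [gadcPow, conjTranspose_sum, conjTranspose_mul, h10, Matrix.mul_assoc]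
  refine ⟨?_, e10⟩
  rw [e10]
  have e : fromBlocks (gadcPow γ ν n (blk00 ρ)) (gadcPow γ ν n (blk01 ρ))
      (gadcPow γ ν n (blk10 ρ)) (gadcPow γ ν n (blk11 ρ))
      = ∑ f : Fin n → Fin 4, fromBlocks (tensorMat fun i => kraus γ ν (f i)) 0 0
            (tensorMat fun i => kraus γ ν (f i)) * blockForm ρ
          * (fromBlocks (tensorMat fun i => kraus γ ν (f i)) 0 0
            (tensorMat fun i => kraus γ ν (f i)))ᴴ := by
    have hρ : blockForm ρ = fromBlocks (blk00 ρ) (blk01 ρ) (blk10 ρ) (blk11 ρ) :=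
      (fromBlocks_toBlocks _).symm
    rw [hρ]
    simp only [fromBlocks_conjTranspose, fromBlocks_multiply, conjTranspose_zero, Matrix.zero_mul,
      Matrix.mul_zero, add_zero, zero_add]
    ext i j
    rcases i with i | i <;> rcases j with j | j <;> simp [gadcPow, Matrix.sum_apply]
  rw [e]
  exact posSemidef_sum _ fun f _ => hb.mul_mul_conjTranspose_same _

/-- The entropy lower bound for arbitrary inputs. -/
theorem entropy_lower (hγ0 : 0 ≤ γ) (hγ1 : γ ≤ 1) (hν0 : 0 ≤ ν) (hν1 : ν ≤ 1)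
    (hkey : KeyHyp γ ν) (hconv : ConvexOn ℝ (Set.Icc 0 1) (gOut γ ν)) :
    ∀ (n : ℕ) (ρ : Matrix (Cfg n) (Cfg n) ℂ), ρ.PosSemidef →
      negMulLog ρ.trace.re + ∑ i, ρ.trace.re * gOut γ ν (pop i ρ / ρ.trace.re)
        ≤ eSum (gadcPow γ ν n ρ) := by
  intro n
  induction n with
  | zero =>
    intro ρ h
    rw [gadcPow_zero, eSum_single h.isHermitian]
    simp
  | succ n ih =>
    intro ρ h
    obtain ⟨hps, h10⟩ := blocks_image_posSemidef (γ := γ) (ν := ν) h
    have hA := blk00_posSemidef h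
    have hB := blk11_posSemidef h
    have h1 := hkey n _ _ _ hps
    rw [h10] at h1
    have hout : eSum (gadcPow γ ν (n + 1) ρ) = eSum (blockForm (gadcPow γ ν (n + 1) ρ)) := by
      have := eSum_reindex (consE n).symm
        (gadcPow_posSemidef (γ := γ) (ν := ν) h).isHermitian
      rw [Equiv.symm_symm] at this
      exact this.symm
    rw [hout, gadcPow_blockForm hγ0 hγ1 hν0 hν1]
    rw [gadcPow_trace hγ0 hγ1 hν0 hν1, gadcPow_trace hγ0 hγ1 hν0 hν1] at h1
    have i0 := ih _ hA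
    have i1 := ih _ hB
    rw [trace_blockForm ρ, Complex.add_re, Fin.sum_univ_succ, pop_zero]
    simp only [pop_succ]
    set p := (blk00 ρ).trace.re
    set q := (blk11 ρ).trace.re
    have hj : ∑ i : Fin n, (p + q) * gOut γ ν ((pop i (blk00 ρ) + pop i (blk11 ρ)) / (p + q))
        ≤ ∑ i, p * gOut γ ν (pop i (blk00 ρ) / p) + ∑ i, q * gOut γ ν (pop i (blk11 ρ) / q) := by
      rw [← Finset.sum_add_distrib]
      exact Finset.sum_le_sum fun i _ => combine_convex hconv (pop_bounds i hA).1 (pop_bounds i hA).2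
        (pop_bounds i hB).1 (pop_bounds i hB).2
    linarith

/-- Schur concavity: entropy is at most the entropy of the diagonal. -/
lemma eSum_le_diag {ι : Type*} [Fintype ι] [DecidableEq ι] {A : Matrix ι ι ℂ} (hA : A.PosSemidef) :
    eSum A ≤ ∑ i, negMulLog (A i i).re := by
  set U : Matrix ι ι ℂ := (hA.isHermitian.eigenvectorUnitary : Matrix ι ι ℂ)
  set w : ι → ι → ℝ := fun i j => Complex.normSq (U i j)
  have hU : U * Uᴴ = 1 := Unitary.coe_mul_star_self hA.isHermitian.eigenvectorUnitary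
  have hU' : Uᴴ * U = 1 := Unitary.coe_star_mul_self hA.isHermitian.eigenvectorUnitary
  have hr : ∀ i, ∑ j, w i j = 1 := by
    intro i
    have := congrArg (fun M : Matrix ι ι ℂ => (M i i).re) hU
    simpa [Matrix.mul_apply, Complex.normSq_apply, w] using this
  have hc : ∀ j, ∑ i, w i j = 1 := by
    intro j
    have := congrArg (fun M : Matrix ι ι ℂ => (M j j).re) hU'
    simpa [Matrix.mul_apply, Complex.normSq_apply, w] using this
  have hd : ∀ i, (A i i).re = ∑ j, w i j * hA.isHermitian.eigenvalues j := by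
    intro i
    conv_lhs => rw [spectral_form hA.isHermitian]
    rw [Matrix.mul_apply, Complex.re_sum]
    refine Finset.sum_congr rfl fun j _ => ?_
    rw [Matrix.mul_diagonal, conjTranspose_apply, Complex.star_def, mul_right_comm,
      Complex.mul_conj, ← Complex.ofReal_mul, Complex.ofReal_re]
  rw [eSum_def hA.isHermitian]
  calc ∑ j, negMulLog (hA.isHermitian.eigenvalues j)
      = ∑ i, ∑ j, w i j * negMulLog (hA.isHermitian.eigenvalues j) := by
        rw [Finset.sum_comm]; simp [← Finset.sum_mul, hc]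
    _ ≤ _ := by
        refine Finset.sum_le_sum fun i _ => ?_
        rw [hd i]
        exact concaveOn_negMulLog.le_map_sum (fun j _ => Complex.normSq_nonneg _) (hr i)
          (fun j _ => hA.eigenvalues_nonneg j)

lemma diag_subadditive :
    ∀ (n : ℕ) (A : Matrix (Cfg n) (Cfg n) ℂ), A.PosSemidef →
      ∑ σ, negMulLog (A σ σ).re
        ≤ negMulLog A.trace.re + ∑ i, A.trace.re * binEntropy (pop i A / A.trace.re) := by
  intro n
  induction n with
  | zero => intro A _; simp [Matrix.trace]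
  | succ n ih =>
    intro A h
    have hA := blk00_posSemidef h
    have hB := blk11_posSemidef h
    have i0 := ih _ hA
    have i1 := ih _ hB
    have e : ∑ σ, negMulLog (A σ σ).re = ∑ σ, negMulLog (blk00 A σ σ).re
        + ∑ σ, negMulLog (blk11 A σ σ).re := by
      rw [← (consE n).sum_comp, Fintype.sum_sum_type]; rfl
    rw [e, trace_blockForm A, Complex.add_re, Fin.sum_univ_succ, pop_zero]
    simp only [pop_succ]
    set p := (blk00 A).trace.re
    set q := (blk11 A).trace.re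
    have hsplit := entropy_split (Complex.nonneg_iff.1 hA.trace_nonneg).1
      (Complex.nonneg_iff.1 hB.trace_nonneg).1
    have hneg : ConvexOn ℝ (Set.Icc 0 1) (-binEntropy) :=
      strictConcave_binEntropy.concaveOn.neg
    have hj : ∑ i, p * binEntropy (pop i (blk00 A) / p) + ∑ i, q * binEntropy (pop i (blk11 A) / q)
        ≤ ∑ i : Fin n, (p + q) * binEntropy ((pop i (blk00 A) + pop i (blk11 A)) / (p + q)) := by
      rw [← Finset.sum_add_distrib]
      refine Finset.sum_le_sum fun i _ => ?_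
      have := combine_convex hneg (pop_bounds i hA).1 (pop_bounds i hA).2
        (pop_bounds i hB).1 (pop_bounds i hB).2
      simp only [Pi.neg_apply, mul_neg] at this
      linarith
    linarith

lemma pop_sum {n m : ℕ} (i : Fin n) (w : Fin m → ℝ) (X : Fin m → Matrix (Cfg n) (Cfg n) ℂ) :
    pop i (∑ a, (w a : ℂ) • X a) = ∑ a, w a * pop i (X a) := by
  simp only [pop, Matrix.sum_apply, Finset.mul_sum]
  rw [Finset.sum_comm (s := Finset.univ (α := Fin m))]
  refine Finset.sum_congr rfl fun σ _ => ?_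
  split_ifs <;> simp

/-- Upper bound on all Holevo values. -/
theorem holevoValues_le (hγ0 : 0 ≤ γ) (hγ1 : γ ≤ 1) (hν0 : 0 ≤ ν) (hν1 : ν ≤ 1)
    (hkey : KeyHyp γ ν) (hconv : ConvexOn ℝ (Set.Icc 0 1) (gOut γ ν)) {F : ℝ}
    (hF : ∀ q ∈ Set.Icc (0 : ℝ) 1, capFun γ ν q ≤ F) (n : ℕ) :
    ∀ x ∈ holevoValues γ ν n, x ≤ n * (F / Real.log 2) := by
  rintro x ⟨m, w, ρ, hw, hw1, hρ, rfl⟩
  have hl : 0 < Real.log 2 := Real.log_pos one_lt_two
  set O := fun a => gadcPow γ ν n (ρ a)
  set avg := ∑ a, (w a : ℂ) • O a with havg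
  have hav : avg.PosSemidef := posSemidef_sum _ fun a _ =>
    (gadcPow_posSemidef (hρ a).1).smul (Complex.zero_le_real.2 (hw a))
  have htr : ∀ a, (ρ a).trace.re = 1 := fun a => by simp [(hρ a).2]
  have hav1 : avg.trace.re = 1 := by
    simp [avg, O, Matrix.trace_sum, gadcPow_trace hγ0 hγ1 hν0 hν1, (hρ _).2, hw1]
  set qb : Fin n → ℝ := fun i => ∑ a, w a * pop i (ρ a) with hqb
  have hpop : ∀ i, pop i avg = tOut γ ν (qb i) := by
    intro i
    simp only [avg, O, pop_sum, gadcPow_pop hγ0 hγ1 hν0 hν1, htr, mul_one, hqb, tOut, mul_add,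
      Finset.sum_add_distrib, ← Finset.sum_mul, hw1, one_mul]
    rw [Finset.mul_sum]
    congr 1
    exact Finset.sum_congr rfl fun a _ => by ring
  have hup : eSum avg ≤ ∑ i, binEntropy (tOut γ ν (qb i)) := by
    refine (eSum_le_diag hav).trans ((diag_subadditive n avg hav).trans (le_of_eq ?_))
    simp [hav1, hpop]
  have hlo : ∑ i, gOut γ ν (qb i) ≤ ∑ a, w a * eSum (O a) := by
    calc ∑ i, gOut γ ν (qb i) ≤ ∑ i, ∑ a, w a * gOut γ ν (pop i (ρ a)) := by
          refine Finset.sum_le_sum fun i _ => ?_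
          exact hconv.map_sum_le (fun a _ => hw a) hw1 (fun a _ => ⟨(pop_bounds i (hρ a).1).1,
            (pop_bounds i (hρ a).1).2.trans (le_of_eq (htr a))⟩)
      _ = ∑ a, w a * ∑ i, gOut γ ν (pop i (ρ a)) := by
          rw [Finset.sum_comm]; simp [Finset.mul_sum]
      _ ≤ _ := by
          refine Finset.sum_le_sum fun a _ => mul_le_mul_of_nonneg_left ?_ (hw a)
          have := entropy_lower hγ0 hγ1 hν0 hν1 hkey hconv n (ρ a) (hρ a).1
          simpa [htr a] using this
  have hmem : ∀ i, qb i ∈ Set.Icc (0 : ℝ) 1 := fun i =>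
    ⟨Finset.sum_nonneg fun a _ => mul_nonneg (hw a) (pop_bounds i (hρ a).1).1, by
      calc qb i ≤ ∑ a, w a * 1 := Finset.sum_le_sum fun a _ =>
            mul_le_mul_of_nonneg_left ((pop_bounds i (hρ a).1).2.trans (le_of_eq (htr a))) (hw a)
        _ = 1 := by simp [hw1]⟩
  have hsum : ∑ i, binEntropy (tOut γ ν (qb i)) - ∑ i, gOut γ ν (qb i) ≤ n * F := by
    rw [← Finset.sum_sub_distrib]
    refine (Finset.sum_le_sum fun i _ => hF (qb i) (hmem i)).trans (le_of_eq ?_)
    simp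
  have e : vnEntropy avg - ∑ a, w a * vnEntropy (O a)
      = (eSum avg - ∑ a, w a * eSum (O a)) / Real.log 2 := by
    simp [vnEntropy, sub_div, Finset.sum_div, mul_div_assoc]
  show vnEntropy avg - ∑ a, w a * vnEntropy (O a) ≤ _
  rw [e, ← mul_div_assoc]
  exact div_le_div_of_nonneg_right (by linarith) hl.le

/-- Product of identical qubit operators. -/
lemma tensorMat_mul {n : ℕ} (M N : Fin n → Matrix (Fin 2) (Fin 2) ℂ) :
    tensorMat M * tensorMat N = tensorMat fun i => M i * N i := by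
  ext σ τ
  simp only [Matrix.mul_apply, tensorMat, ← Finset.prod_mul_distrib]
  exact (Fintype.prod_sum fun i k => M i (σ i) k * N i k (τ i)).symm

lemma tensorMat_conjTranspose {n : ℕ} (M : Fin n → Matrix (Fin 2) (Fin 2) ℂ) :
    (tensorMat M)ᴴ = tensorMat fun i => (M i)ᴴ := by
  ext σ τ; simp [tensorMat]

lemma tensorMat_diag {n : ℕ} (d : Fin n → Fin 2 → ℂ) :
    tensorMat (fun i => diagonal (d i)) = diagonal fun σ => ∏ i, d i (σ i) := by
  ext σ τ
  by_cases h : σ = τ
  · subst h; simp [tensorMat]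
  · obtain ⟨i, hi⟩ := Function.ne_iff.1 h
    rw [Matrix.diagonal_apply_ne _ h, tensorMat]
    exact Finset.prod_eq_zero (Finset.mem_univ i) (Matrix.diagonal_apply_ne _ hi)

lemma tensorMat_one (n : ℕ) : tensorMat (fun _ : Fin n => (1 : Matrix (Fin 2) (Fin 2) ℂ)) = 1 := by
  simp only [← diagonal_one, tensorMat_diag]
  simp

lemma tensorMat_sum {n m : ℕ} (M : Fin n → Fin m → Matrix (Fin 2) (Fin 2) ℂ) :
    ∑ f : Fin n → Fin m, tensorMat (fun i => M i (f i)) = tensorMat fun i => ∑ k, M i k := by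
  ext σ τ
  simp only [Matrix.sum_apply, tensorMat]
  exact (Fintype.prod_sum fun i k => M i k (σ i) (τ i)).symm

lemma gadcPow_tensor (n : ℕ) (M : Fin n → Matrix (Fin 2) (Fin 2) ℂ) :
    gadcPow γ ν n (tensorMat M) = tensorMat fun i => gadc γ ν (M i) := by
  simp only [gadcPow, tensorMat_conjTranspose, tensorMat_mul]
  exact tensorMat_sum fun i k => kraus γ ν k * M i * (kraus γ ν k)ᴴ

lemma gadc_apply (hγ0 : 0 ≤ γ) (hγ1 : γ ≤ 1) (hν0 : 0 ≤ ν) (hν1 : ν ≤ 1) (q : ℝ) (z : ℂ) :
    gadc γ ν !![1 - (q : ℂ), z; starRingEnd ℂ z, (q : ℂ)]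
      = !![1 - (tOut γ ν q : ℂ), ((Real.sqrt (1 - γ) : ℝ) : ℂ) * z;
          ((Real.sqrt (1 - γ) : ℝ) : ℂ) * starRingEnd ℂ z, (tOut γ ν q : ℂ)] := by
  set p : ℂ := ((Real.sqrt (1 - ν) : ℝ) : ℂ) with hp
  set r : ℂ := ((Real.sqrt ν : ℝ) : ℂ) with hr
  set l : ℂ := ((Real.sqrt (1 - γ) : ℝ) : ℂ) with hl
  set g : ℂ := ((Real.sqrt γ : ℝ) : ℂ) with hg
  have hpp : p * p = 1 - (ν : ℂ) := by
    rw [hp, ← Complex.ofReal_mul, Real.mul_self_sqrt (by linarith)]; push_cast; rfl
  have hrr : r * r = (ν : ℂ) := by rw [hr, ← Complex.ofReal_mul, Real.mul_self_sqrt hν0]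
  have hll : l * l = 1 - (γ : ℂ) := by
    rw [hl, ← Complex.ofReal_mul, Real.mul_self_sqrt (by linarith)]; push_cast; rfl
  have hgg : g * g = (γ : ℂ) := by rw [hg, ← Complex.ofReal_mul, Real.mul_self_sqrt hγ0]
  have sp : starRingEnd ℂ p = p := by simp [hp]
  have sr : starRingEnd ℂ r = r := by simp [hr]
  have sl : starRingEnd ℂ l = l := by simp [hl]
  have sg : starRingEnd ℂ g = g := by simp [hg]
  ext i j
  fin_cases i <;> fin_cases j <;>
    simp [gadc, kraus, Fin.sum_univ_four, Matrix.mul_apply, Fin.sum_univ_two, Matrix.vecMul,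
      dotProduct, Matrix.conjTranspose_apply, ← hp, ← hr, ← hl,
      ← hg, sp, sr, sl, sg, tOut]
  · linear_combination (1 - (q : ℂ) + g * g * (q : ℂ)) * hpp + l * l * (1 - (q : ℂ)) * hrr
      + (ν : ℂ) * (1 - (q : ℂ)) * hll + (1 - (ν : ℂ)) * (q : ℂ) * hgg
  · linear_combination l * z * hpp + l * z * hrr
  · linear_combination l * starRingEnd ℂ z * hpp + l * starRingEnd ℂ z * hrr
  · linear_combination l * l * (q : ℂ) * hpp + ((q : ℂ) + g * g * (1 - (q : ℂ))) * hrr
      + (1 - (ν : ℂ)) * (q : ℂ) * hll + (ν : ℂ) * (1 - (q : ℂ)) * hgg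

/-- A phase-flipped pure state with excited population q. -/
noncomputable def signState (q : ℝ) (b : Fin 2) : Matrix (Fin 2) (Fin 2) ℂ :=
  !![((Real.sqrt (1 - q) : ℝ) : ℂ), 0;
    ((if b = 0 then Real.sqrt q else -Real.sqrt q : ℝ) : ℂ), 0]

/-- The off-diagonal entry of the density matrix of signState. -/
noncomputable def signCoh (q : ℝ) (b : Fin 2) : ℂ :=
  ((if b = 0 then Real.sqrt (1 - q) * Real.sqrt q else -(Real.sqrt (1 - q) * Real.sqrt q) : ℝ) : ℂ)

lemma signState_sq {q : ℝ} (hq0 : 0 ≤ q) (hq1 : q ≤ 1) (b : Fin 2) :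
    signState q b * (signState q b)ᴴ
      = !![1 - (q : ℂ), signCoh q b; starRingEnd ℂ (signCoh q b), (q : ℂ)] := by
  have h1 := Real.mul_self_sqrt (by linarith : (0 : ℝ) ≤ 1 - q)
  have h2 := Real.mul_self_sqrt hq0
  ext i j
  fin_cases i <;> fin_cases j <;> fin_cases b <;>
    simp [signState, signCoh, Matrix.mul_apply, Fin.sum_univ_two, ← Complex.ofReal_mul, h1, h2,
      mul_comm]

lemma sum_negMulLog_prod : ∀ (n : ℕ) (l : Fin n → Fin 2 → ℝ), (∀ i, l i 0 + l i 1 = 1) →
    ∑ σ : Cfg n, negMulLog (∏ i, l i (σ i)) = ∑ i, (negMulLog (l i 0) + negMulLog (l i 1)) := by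
  intro n
  induction n with
  | zero => intro l _; simp
  | succ n ih =>
    intro l hl
    have hP : ∑ σ : Cfg n, ∏ i : Fin n, l i.succ (σ i) = 1 := by
      rw [← Fintype.prod_sum fun (i : Fin n) k => l i.succ k]
      simp [Fin.sum_univ_two, hl]
    have i0 := ih (fun i => l i.succ) (fun i => hl _)
    rw [← (consE n).sum_comp, Fintype.sum_sum_type, Fin.sum_univ_succ]
    simp only [consE, Equiv.coe_fn_mk, Sum.elim_inl, Sum.elim_inr, Fin.prod_univ_succ,
      Fin.cons_zero, Fin.cons_succ, negMulLog_mul, Finset.sum_add_distrib, ← Finset.mul_sum,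
      ← Finset.sum_mul, hP, i0, one_mul]
    linear_combination (∑ x : Fin n, negMulLog (l x.succ 0) + ∑ x : Fin n, negMulLog (l x.succ 1))
      * hl 0

lemma out_spectrum (hγ0 : 0 ≤ γ) (hγ1 : γ ≤ 1) (hν0 : 0 ≤ ν) (hν1 : ν ≤ 1) {q : ℝ}
    (hq0 : 0 ≤ q) (hq1 : q ≤ 1) (b : Fin 2) :
    ∃ (U : Matrix (Fin 2) (Fin 2) ℂ) (l : Fin 2 → ℝ), U * Uᴴ = 1 ∧ l 0 + l 1 = 1 ∧
      negMulLog (l 0) + negMulLog (l 1) = gOut γ ν q ∧
      gadc γ ν (signState q b * (signState q b)ᴴ) = U * diagonal (fun k => (l k : ℂ)) * Uᴴ := by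
  rw [signState_sq hq0 hq1, gadc_apply hγ0 hγ1 hν0 hν1]
  set M : Matrix (Fin 2) (Fin 2) ℂ :=
    !![1 - (tOut γ ν q : ℂ), ((Real.sqrt (1 - γ) : ℝ) : ℂ) * signCoh q b;
      ((Real.sqrt (1 - γ) : ℝ) : ℂ) * starRingEnd ℂ (signCoh q b), (tOut γ ν q : ℂ)] with hMdef
  have hM : M.IsHermitian := by
    ext i j
    fin_cases i <;> fin_cases j <;> simp [hMdef]
  have hs : hM.eigenvalues 0 + hM.eigenvalues 1 = 1 := by
    have h := congrArg Complex.re hM.trace_eq_sum_eigenvalues
    simpa [Matrix.trace, Fin.sum_univ_two, hMdef] using h.symm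
  have hp : hM.eigenvalues 0 * hM.eigenvalues 1 = outDet γ ν q := by
    have h := congrArg Complex.re hM.det_eq_prod_eigenvalues
    have e : signCoh q b * starRingEnd ℂ (signCoh q b) = ((q * (1 - q) : ℝ) : ℂ) := by
      have h1 := Real.mul_self_sqrt (by linarith : (0 : ℝ) ≤ 1 - q)
      have h2 := Real.mul_self_sqrt hq0
      fin_cases b <;> simp [signCoh, ← Complex.ofReal_mul] <;> norm_cast <;>
        linear_combination Real.sqrt q * Real.sqrt q * h1 + (1 - q) * h2
    have el : ((Real.sqrt (1 - γ) : ℝ) : ℂ) * ((Real.sqrt (1 - γ) : ℝ) : ℂ)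
        = ((1 - γ : ℝ) : ℂ) := by rw [← Complex.ofReal_mul, Real.mul_self_sqrt (by linarith)]
    have hdet : M.det = ((outDet γ ν q : ℝ) : ℂ) := by
      rw [Matrix.det_fin_two]
      simp [hMdef, outDet]
      push_cast at e el
      linear_combination (-(starRingEnd ℂ (signCoh q b) * signCoh q b)) * el
        - (1 - (γ : ℂ)) * e
    rw [hdet] at h
    simpa [Fin.prod_univ_two] using h.symm
  refine ⟨(hM.eigenvectorUnitary : Matrix (Fin 2) (Fin 2) ℂ), hM.eigenvalues,
    Unitary.coe_mul_star_self hM.eigenvectorUnitary, hs, ?_, spectral_form hM⟩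
  set x := hM.eigenvalues 0
  have h1 : hM.eigenvalues 1 = 1 - x := by linarith
  rw [gOut, ← hp, h1]
  have hsq : Real.sqrt (1 - 4 * (x * (1 - x))) = |2 * x - 1| := by
    rw [← Real.sqrt_sq_eq_abs]; ring_nf
  rw [hsq, binEntropy_eq_negMulLog_add_negMulLog_one_sub]
  rcases le_total 0 (2 * x - 1) with h | h
  · rw [abs_of_nonneg h, show (1 + (2 * x - 1)) / 2 = x by ring]
  · rw [abs_of_nonpos h, show (1 + -(2 * x - 1)) / 2 = 1 - x by ring, sub_sub_cancel, add_comm]

/-- The product ensemble attains n times the one-use value. -/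
theorem product_value (hγ0 : 0 ≤ γ) (hγ1 : γ ≤ 1) (hν0 : 0 ≤ ν) (hν1 : ν ≤ 1) {q : ℝ}
    (hq0 : 0 ≤ q) (hq1 : q ≤ 1) (n : ℕ) :
    (n : ℝ) * (capFun γ ν q / Real.log 2) ∈ holevoValues γ ν n := by
  classical
  let e := Fintype.equivFin (Cfg n)
  set c : ℝ := (1 / 2) ^ n with hc
  let st : Cfg n → Matrix (Cfg n) (Cfg n) ℂ := fun s =>
    tensorMat fun i => signState q (s i) * (signState q (s i))ᴴ
  have hcard : (Fintype.card (Cfg n) : ℝ) * c = 1 := by
    simp [hc, ← mul_pow]
  refine ⟨Fintype.card (Cfg n), fun _ => c, fun a => st (e.symm a), fun _ => by positivity,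
    by simp only [Finset.sum_const, Finset.card_univ, Fintype.card_fin, nsmul_eq_mul]; exact hcard,
    fun a => ⟨?_, ?_⟩, ?_⟩
  · show (tensorMat fun i => signState q (e.symm a i) * (signState q (e.symm a i))ᴴ).PosSemidef
    rw [← tensorMat_mul, ← tensorMat_conjTranspose]
    exact posSemidef_self_mul_conjTranspose _
  · show (tensorMat fun i => signState q (e.symm a i) * (signState q (e.symm a i))ᴴ).trace = 1
    simp only [Matrix.trace, Matrix.diag, tensorMat]
    rw [← Fintype.prod_sum fun i k => (signState q (e.symm a i) * (signState q (e.symm a i))ᴴ) k k]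
    simp [signState_sq hq0 hq1, Fin.sum_univ_two]
  have hent : ∀ s, eSum (gadcPow γ ν n (st s)) = n * gOut γ ν q := by
    intro s
    choose U l hU hl hg hM using fun i => out_spectrum (γ := γ) (ν := ν) hγ0 hγ1 hν0 hν1 hq0 hq1 (s i)
    have e1 : gadcPow γ ν n (st s) = tensorMat U
        * diagonal (fun σ => ((∏ i, l i (σ i) : ℝ) : ℂ)) * (tensorMat U)ᴴ := by
      simp only [st, gadcPow_tensor, hM]
      rw [tensorMat_conjTranspose]
      have : (diagonal fun σ => ((∏ i, l i (σ i) : ℝ) : ℂ))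
          = tensorMat fun i => diagonal fun k => (l i k : ℂ) := by
        rw [tensorMat_diag]; push_cast; rfl
      rw [this, tensorMat_mul, tensorMat_mul]
    have hUU : tensorMat U * (tensorMat U)ᴴ = 1 := by
      rw [tensorMat_conjTranspose, tensorMat_mul]; simp [hU, tensorMat_one]
    rw [e1, eSum_conj_diag hUU, sum_negMulLog_prod n l hl]
    simp [hg]
  have havg : ∑ a : Fin (Fintype.card (Cfg n)), (c : ℂ) • gadcPow γ ν n (st (e.symm a))
      = diagonal fun σ : Cfg n => ((∏ i, (if σ i = 0 then 1 - tOut γ ν q else tOut γ ν q) : ℝ) : ℂ) := by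
    rw [← e.sum_comp]
    simp only [Equiv.symm_apply_apply, st, gadcPow_tensor]
    have h1 : ∀ s : Cfg n, (c : ℂ) • tensorMat (fun i => gadc γ ν (signState q (s i)
          * (signState q (s i))ᴴ))
        = tensorMat (fun i => (1 / 2 : ℂ) • gadc γ ν (signState q (s i) * (signState q (s i))ᴴ)) := by
      intro s; ext σ τ
      simp [tensorMat, Finset.prod_mul_distrib, hc]
    simp only [h1]
    rw [tensorMat_sum fun _ k => (1 / 2 : ℂ) • gadc γ ν (signState q k * (signState q k)ᴴ)]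
    have h2 : ∑ k, (1 / 2 : ℂ) • gadc γ ν (signState q k * (signState q k)ᴴ)
        = diagonal fun k : Fin 2 =>
          ((if k = 0 then 1 - tOut γ ν q else tOut γ ν q : ℝ) : ℂ) := by
      simp only [signState_sq hq0 hq1, gadc_apply hγ0 hγ1 hν0 hν1]
      ext i j
      fin_cases i <;> fin_cases j <;> simp [Fin.sum_univ_two, signCoh] <;> ring
    rw [h2, tensorMat_diag]
    push_cast
    rfl
  simp only [vnEntropy, hent]
  rw [havg, eSum_diagonal,
    sum_negMulLog_prod n (fun _ k => if k = 0 then 1 - tOut γ ν q else tOut γ ν q)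
      (fun i => by simp)]
  simp only [Finset.sum_const, Finset.card_univ, Fintype.card_fin, nsmul_eq_mul, capFun, if_true,
    Fin.isValue, one_ne_zero, if_false, binEntropy_eq_negMulLog_add_negMulLog_one_sub]
  linear_combination ((n : ℝ) * gOut γ ν q / Real.log 2) * hcard

/-- Additivity and the value of the capacity. -/
theorem additivity (hγ0 : 0 ≤ γ) (hγ1 : γ ≤ 1) (hν0 : 0 ≤ ν) (hν1 : ν ≤ 1)
    (hkey : KeyHyp γ ν) (hconv : ConvexOn ℝ (Set.Icc 0 1) (gOut γ ν)) :
    ∃ q ∈ Set.Icc (0 : ℝ) 1, IsMaxOn (capFun γ ν) (Set.Icc 0 1) q ∧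
      (∀ n : ℕ, IsGreatest (holevoValues γ ν n) (n * (capFun γ ν q / Real.log 2))) ∧
      (∀ n : ℕ, holevoCap γ ν n = n * holevoCap γ ν 1) ∧
      holevoCap γ ν 1 = capFun γ ν q / Real.log 2 ∧
      classicalCapacity γ ν = holevoCap γ ν 1 := by
  have hcont : Continuous (capFun γ ν) := by
    unfold capFun gOut outDet tOut
    exact (Real.binEntropy_continuous.comp (by fun_prop)).sub
      (Real.binEntropy_continuous.comp (by fun_prop))
  obtain ⟨q, hq, hmax⟩ := isCompact_Icc.exists_isMaxOn (Set.nonempty_Icc.2 zero_le_one)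
    hcont.continuousOn
  have hg : ∀ n : ℕ, IsGreatest (holevoValues γ ν n) (n * (capFun γ ν q / Real.log 2)) := fun n =>
    ⟨product_value hγ0 hγ1 hν0 hν1 hq.1 hq.2 n,
      fun x hx => holevoValues_le hγ0 hγ1 hν0 hν1 hkey hconv (fun p hp => hmax hp) n x hx⟩
  have hcap : ∀ n : ℕ, holevoCap γ ν n = n * (capFun γ ν q / Real.log 2) :=
    fun n => (hg n).csSup_eq
  have h1 : holevoCap γ ν 1 = capFun γ ν q / Real.log 2 := by rw [hcap]; simp
  refine ⟨q, hq, hmax, hg, fun n => by rw [hcap, h1], h1, ?_⟩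
  rw [classicalCapacity]
  have : ∀ n : ℕ, holevoCap γ ν (n + 1) / ((n : ℝ) + 1) = holevoCap γ ν 1 := by
    intro n
    rw [hcap, h1]
    push_cast
    rw [mul_div_assoc, mul_comm, div_mul_cancel₀]
    positivity
  simp only [this, ciSup_const]

end Vale.Agent.P358
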