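import Vale.Agent.P358.Entropy

/-!
The scalar two-level function and its subadditivity.
-/

namespace Vale.Agent.P358

open Real Filter Topology

/-- Roots of z² - (a+x+y) z + x y. -/
noncomputable def muP (a x y : ℝ) : ℝ := ((a + x + y) + Real.sqrt ((a + x + y) ^ 2 - 4 * (x * y))) / 2
noncomputable def muM (a x y : ℝ) : ℝ := ((a + x + y) - Real.sqrt ((a + x + y) ^ 2 - 4 * (x * y))) / 2

lemma disc_nonneg {a x y : ℝ} (ha : 0 ≤ a) (hx : 0 ≤ x) (hy : 0 ≤ y) :
    0 ≤ (a + x + y) ^ 2 - 4 * (x * y) := by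
  nlinarith [sq_nonneg (x - y), mul_nonneg ha hx, mul_nonneg ha hy, sq_nonneg a]

lemma mu_nonneg {a x y : ℝ} (ha : 0 ≤ a) (hx : 0 ≤ x) (hy : 0 ≤ y) :
    0 ≤ muP a x y ∧ 0 ≤ muM a x y := by
  have h := Real.sqrt_le_sqrt (show (a + x + y) ^ 2 - 4 * (x * y) ≤ (a + x + y) ^ 2 by
    nlinarith [mul_nonneg hx hy])
  rw [Real.sqrt_sq (by linarith)] at h
  have h0 := Real.sqrt_nonneg ((a + x + y) ^ 2 - 4 * (x * y))
  unfold muP muM
  constructor <;> linarith

lemma mu_prod {a x y s : ℝ} (ha : 0 ≤ a) (hx : 0 ≤ x) (hy : 0 ≤ y) :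
    (s + muP a x y) * (s + muM a x y) = (s + x) * (s + y) + s * a := by
  have h := Real.mul_self_sqrt (disc_nonneg ha hx hy)
  unfold muP muM
  linear_combination (-(1 : ℝ) / 4) * h

/-- The scalar entropy difference. -/
noncomputable def lFun (a x y : ℝ) : ℝ :=
  negMulLog (muP a x y) + negMulLog (muM a x y) - negMulLog x - negMulLog y - negMulLog a

/-- Its resolvent integrand. -/
noncomputable def fS (a x y s : ℝ) : ℝ :=
  Real.log (1 + s * a / ((s + x) * (s + y))) - (Real.log (s + a) - Real.log s)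

lemma fS_eq {a x y s : ℝ} (ha : 0 ≤ a) (hx : 0 ≤ x) (hy : 0 ≤ y) (hs : 0 < s) :
    fS a x y s = Real.log (s + muP a x y) + Real.log (s + muM a x y) - Real.log (s + x)
      - Real.log (s + y) - Real.log (s + a) + Real.log s := by
  obtain ⟨hp, hm⟩ := mu_nonneg ha hx hy
  rw [fS, ← Real.log_mul (by linarith) (by linarith), mu_prod ha hx hy]
  have h1 : (0 : ℝ) < (s + x) * (s + y) := by positivity
  rw [show 1 + s * a / ((s + x) * (s + y)) = ((s + x) * (s + y) + s * a) / ((s + x) * (s + y)) by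
    field_simp, Real.log_div (by positivity) h1.ne', Real.log_mul (by positivity) (by positivity)]
  ring

lemma fS_integrable {a x y Λ : ℝ} (ha : 0 ≤ a) (hx : 0 ≤ x) (hy : 0 ≤ y) (hΛ : 1 ≤ Λ) :
    IntervalIntegrable (fS a x y) MeasureTheory.volume (1 / Λ) Λ := by
  obtain ⟨hp, hm⟩ := mu_nonneg ha hx hy
  have c : ∀ z, 0 ≤ z → ContinuousOn (fun s => Real.log (s + z)) (Set.uIcc (1 / Λ) Λ) :=
    fun z hz => continuousOn_log_add hΛ hz
  have c0 : ContinuousOn (fun s => Real.log s) (Set.uIcc (1 / Λ) Λ) := by simpa using c 0 le_rfl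
  refine ContinuousOn.intervalIntegrable ?_
  refine (((((c _ hp).add (c _ hm)).sub (c x hx)).sub (c y hy)).sub (c a ha) |>.add c0).congr ?_
  intro s hs
  have h0 : 0 < 1 / Λ := by positivity
  have h1 : 1 / Λ ≤ Λ := le_trans ((div_le_one (by linarith)).2 hΛ) hΛ
  rw [Set.uIcc_of_le h1] at hs
  exact fS_eq ha hx hy (lt_of_lt_of_le h0 hs.1)

lemma fS_limit {a x y : ℝ} (ha : 0 ≤ a) (hx : 0 ≤ x) (hy : 0 ≤ y) :
    Tendsto (fun Λ => ∫ s in (1 / Λ)..Λ, fS a x y s) atTop (𝓝 (lFun a x y)) := by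
  obtain ⟨hp, hm⟩ := mu_nonneg ha hx hy
  have t := ((((logInt_limit hp).add (logInt_limit hm)).sub (logInt_limit hx)).sub
    (logInt_limit hy)).sub (logInt_limit ha)
  refine t.congr' ?_
  filter_upwards [eventually_ge_atTop (1 : ℝ)] with Λ hΛ
  have c : ∀ z, 0 ≤ z → IntervalIntegrable (fun s => Real.log (s + z))
      MeasureTheory.volume (1 / Λ) Λ :=
    fun z hz => (continuousOn_log_add hΛ hz).intervalIntegrable
  have h1 : 1 / Λ ≤ Λ := le_trans ((div_le_one (by linarith)).2 hΛ) hΛ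
  have e : ∫ s in (1 / Λ)..Λ, fS a x y s = ∫ s in (1 / Λ)..Λ, (Real.log (s + muP a x y)
      + Real.log (s + muM a x y) - Real.log (s + x) - Real.log (s + y) - Real.log (s + a)
      + Real.log (s + 0)) := by
    refine intervalIntegral.integral_congr fun s hs => ?_
    rw [Set.uIcc_of_le h1] at hs
    have h0 : 0 < 1 / Λ := by positivity
    simp only [add_zero]
    exact fS_eq ha hx hy (lt_of_lt_of_le h0 hs.1)
  rw [e, intervalIntegral.integral_add ((((((c _ hp).add (c _ hm)).sub (c x hx)).sub (c y hy)).sub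
      (c a ha))) (c 0 le_rfl),
    intervalIntegral.integral_sub (((((c _ hp).add (c _ hm)).sub (c x hx)).sub (c y hy))) (c a ha),
    intervalIntegral.integral_sub ((((c _ hp).add (c _ hm)).sub (c x hx))) (c y hy),
    intervalIntegral.integral_sub (((c _ hp).add (c _ hm))) (c x hx),
    intervalIntegral.integral_add (c _ hp) (c _ hm)]
  simp only [logInt, muP, muM]
  ring

lemma convexOn_log_one_add_exp : ConvexOn ℝ Set.univ (fun z : ℝ => Real.log (1 + Real.exp z)) := by
  have hd : ∀ z, HasDerivAt (fun z : ℝ => Real.log (1 + Real.exp z))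
      (Real.exp z / (1 + Real.exp z)) z := fun z =>
    ((Real.hasDerivAt_exp z).const_add 1).log (by positivity)
  refine Monotone.convexOn_univ_of_deriv (fun z => (hd z).differentiableAt) ?_
  intro u v huv
  rw [(hd u).deriv, (hd v).deriv, div_le_div_iff₀ (by positivity) (by positivity)]
  nlinarith [Real.exp_le_exp.2 huv]

lemma fS_jensen {α : Type*} [Fintype α] {θ u v : α → ℝ} (hθ : ∀ i, 0 ≤ θ i)
    (hθ1 : ∑ i, θ i = 1) (hu : ∀ i, 0 ≤ u i) (hv : ∀ i, 0 ≤ v i) {a s X Y : ℝ} (ha : 0 ≤ a)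
    (hs : 0 < s) (hX : ∑ i, θ i * u i ≤ X) (hY : ∑ i, θ i * v i ≤ Y) :
    fS a X Y s ≤ ∑ i, θ i * fS a (u i) (v i) s := by
  rcases eq_or_lt_of_le ha with h0 | ha'
  · subst h0
    simp [fS]
  set z : α → ℝ := fun i => Real.log (s * a) - Real.log (s + u i) - Real.log (s + v i) with hz
  have hex : ∀ {p q : ℝ}, 0 ≤ p → 0 ≤ q →
      Real.exp (Real.log (s * a) - Real.log (s + p) - Real.log (s + q))
        = s * a / ((s + p) * (s + q)) := by
    intro p q hp hq
    rw [Real.exp_sub, Real.exp_sub, Real.exp_log (by positivity), Real.exp_log (by positivity),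
      Real.exp_log (by positivity), div_div]
  have hX0 : 0 ≤ X := le_trans (Finset.sum_nonneg fun i _ => mul_nonneg (hθ i) (hu i)) hX
  have hY0 : 0 ≤ Y := le_trans (Finset.sum_nonneg fun i _ => mul_nonneg (hθ i) (hv i)) hY
  have hlog : ∀ (w : α → ℝ) (W : ℝ), (∀ i, 0 ≤ w i) → ∑ i, θ i * w i ≤ W →
      ∑ i, θ i * Real.log (s + w i) ≤ Real.log (s + W) := by
    intro w W hw hW
    have h1 := (strictConcaveOn_log_Ioi.concaveOn).le_map_sum (t := Finset.univ) (w := θ)
      (p := fun i => s + w i) (fun i _ => hθ i) hθ1 (fun i _ => by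
        show 0 < s + w i
        linarith [hw i])
    refine le_trans (by simpa using h1) (Real.log_le_log ?_ ?_)
    · simp only [smul_eq_mul, mul_add, Finset.sum_add_distrib, ← Finset.sum_mul, hθ1, one_mul]
      have := Finset.sum_nonneg fun i (_ : i ∈ Finset.univ) => mul_nonneg (hθ i) (hw i)
      linarith
    · simp only [smul_eq_mul, mul_add, Finset.sum_add_distrib, ← Finset.sum_mul, hθ1, one_mul]
      linarith
  have h1 : Real.log (s * a) - Real.log (s + X) - Real.log (s + Y) ≤ ∑ i, θ i * z i := by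
    simp only [hz, mul_sub, Finset.sum_sub_distrib, ← Finset.sum_mul, hθ1, one_mul]
    linarith [hlog u X hu hX, hlog v Y hv hY]
  have h2 := convexOn_log_one_add_exp.map_sum_le (t := Finset.univ) (w := θ) (p := z)
    (fun i _ => hθ i) hθ1 (fun i _ => Set.mem_univ _)
  simp only [smul_eq_mul] at h2
  have h3 : Real.log (1 + s * a / ((s + X) * (s + Y)))
      ≤ ∑ i, θ i * Real.log (1 + s * a / ((s + u i) * (s + v i))) := by
    refine le_trans ?_ (h2.trans (le_of_eq (Finset.sum_congr rfl fun i _ => ?_)))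
    · rw [← hex hX0 hY0]
      exact Real.log_le_log (by positivity) (by linarith [Real.exp_le_exp.2 h1])
    · simp only [hz]; rw [hex (hu i) (hv i)]
  simp only [fS, mul_sub, Finset.sum_sub_distrib, ← Finset.sum_mul, hθ1, one_mul]
  linarith

lemma lFun_zero {x y : ℝ} (hx : 0 ≤ x) (hy : 0 ≤ y) : lFun 0 x y = 0 := by
  have hd : Real.sqrt ((0 + x + y) ^ 2 - 4 * (x * y)) = |x - y| := by
    rw [← Real.sqrt_sq_eq_abs]; ring_nf
  unfold lFun muP muM
  rw [hd]
  rcases le_total x y with h | h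
  · rw [abs_of_nonpos (sub_nonpos.2 h)]
    simp only [show (0 + x + y + -(x - y)) / 2 = y by ring,
      show (0 + x + y - -(x - y)) / 2 = x by ring, negMulLog_zero]
    ring
  · rw [abs_of_nonneg (sub_nonneg.2 h)]
    simp only [show (0 + x + y + (x - y)) / 2 = x by ring,
      show (0 + x + y - (x - y)) / 2 = y by ring, negMulLog_zero]
    ring

lemma lFun_smul {θ : ℝ} (hθ : 0 ≤ θ) (a x y : ℝ) :
    lFun (θ * a) (θ * x) (θ * y) = θ * lFun a x y := by
  have hd : Real.sqrt ((θ * a + θ * x + θ * y) ^ 2 - 4 * (θ * x * (θ * y)))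
      = θ * Real.sqrt ((a + x + y) ^ 2 - 4 * (x * y)) := by
    rw [show (θ * a + θ * x + θ * y) ^ 2 - 4 * (θ * x * (θ * y))
      = θ ^ 2 * ((a + x + y) ^ 2 - 4 * (x * y)) by ring, Real.sqrt_mul (sq_nonneg θ),
      Real.sqrt_sq hθ]
  have hp : muP (θ * a) (θ * x) (θ * y) = θ * muP a x y := by
    unfold muP; rw [hd]; ring
  have hm : muM (θ * a) (θ * x) (θ * y) = θ * muM a x y := by
    unfold muM; rw [hd]; ring
  have hsum : muP a x y + muM a x y = a + x + y := by unfold muP muM; ring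
  simp only [lFun, hp, hm, negMulLog_mul]
  linear_combination negMulLog θ * hsum

/-- Subadditivity of the scalar function. -/
lemma lFun_subadd {α : Type*} [Fintype α] {a x y : α → ℝ} (ha : ∀ i, 0 ≤ a i) (hx : ∀ i, 0 ≤ x i)
    (hy : ∀ i, 0 ≤ y i) :
    lFun (∑ i, a i) (∑ i, x i) (∑ i, y i) ≤ ∑ i, lFun (a i) (x i) (y i) := by
  set P := ∑ i, a i with hP
  rcases eq_or_lt_of_le (Finset.sum_nonneg fun i _ => ha i : 0 ≤ P) with h0 | hPpos
  · have hai : ∀ i, a i = 0 := fun i =>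
      (Finset.sum_eq_zero_iff_of_nonneg fun i _ => ha i).1 h0.symm i (Finset.mem_univ i)
    rw [show P = 0 from h0.symm, lFun_zero (Finset.sum_nonneg fun i _ => hx i) (Finset.sum_nonneg fun i _ => hy i)]
    simp [hai, lFun_zero (hx _) (hy _)]
  set θ : α → ℝ := fun i => a i / P with hθdef
  have hθ : ∀ i, 0 ≤ θ i := fun i => div_nonneg (ha i) hPpos.le
  have hθ1 : ∑ i, θ i = 1 := by rw [hθdef, ← Finset.sum_div, ← hP, div_self hPpos.ne']
  set u : α → ℝ := fun i => x i / θ i with hu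
  set v : α → ℝ := fun i => y i / θ i with hv
  have hu0 : ∀ i, 0 ≤ u i := fun i => div_nonneg (hx i) (hθ i)
  have hv0 : ∀ i, 0 ≤ v i := fun i => div_nonneg (hy i) (hθ i)
  have hle : ∀ (w : α → ℝ), (∀ i, 0 ≤ w i) → ∑ i, θ i * (w i / θ i) ≤ ∑ i, w i := by
    intro w hw
    refine Finset.sum_le_sum fun i _ => ?_
    rcases eq_or_lt_of_le (hθ i) with h | h
    · rw [← h]; simpa using hw i
    · rw [mul_div_cancel₀ _ h.ne']
  have hsplit : ∀ i, lFun (a i) (x i) (y i) = θ i * lFun P (u i) (v i) := by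
    intro i
    rcases eq_or_lt_of_le (hθ i) with h | h
    · have : a i = 0 := by
        have := h.symm
        simp only [hθdef, div_eq_zero_iff] at this
        exact this.resolve_right hPpos.ne'
      rw [this, lFun_zero (hx i) (hy i), ← h, zero_mul]
    · rw [← lFun_smul (hθ i), hu, hv, mul_div_cancel₀ _ h.ne', mul_div_cancel₀ _ h.ne']
      congr 1
      simp only [hθdef]
      rw [div_mul_cancel₀]
      exact hPpos.ne'
  have hX : 0 ≤ ∑ i, x i := Finset.sum_nonneg fun i _ => hx i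
  have hY : 0 ≤ ∑ i, y i := Finset.sum_nonneg fun i _ => hy i
  simp only [hsplit]
  refine le_of_tendsto_of_tendsto (fS_limit hPpos.le hX hY)
    (tendsto_finsetSum _ fun i _ => (fS_limit hPpos.le (hu0 i) (hv0 i)).const_mul (θ i)) ?_
  filter_upwards [eventually_ge_atTop (1 : ℝ)] with Λ hΛ
  have h1 : 1 / Λ ≤ Λ := le_trans ((div_le_one (by linarith)).2 hΛ) hΛ
  simp only [← intervalIntegral.integral_const_mul]
  rw [← intervalIntegral.integral_finsetSum
    (fun i _ => (fS_integrable hPpos.le (hu0 i) (hv0 i) hΛ).const_mul _)]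
  refine intervalIntegral.integral_mono_on h1 (fS_integrable hPpos.le hX hY hΛ) ?_ fun s hs => ?_
  · have := IntervalIntegrable.sum Finset.univ
      (fun i _ => (fS_integrable hPpos.le (hu0 i) (hv0 i) hΛ).const_mul (θ i))
    simpa [Finset.sum_fn] using this
  · have h0 : 0 < 1 / Λ := by positivity
    exact fS_jensen hθ hθ1 hu0 hv0 hPpos.le (lt_of_lt_of_le h0 hs.1) (hle x hx) (hle y hy)

lemma lFun_antitone {a x y X Y : ℝ} (ha : 0 ≤ a) (hx : 0 ≤ x) (hy : 0 ≤ y) (hX : x ≤ X)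
    (hY : y ≤ Y) : lFun a X Y ≤ lFun a x y := by
  refine le_of_tendsto_of_tendsto (fS_limit ha (hx.trans hX) (hy.trans hY)) (fS_limit ha hx hy) ?_
  filter_upwards [eventually_ge_atTop (1 : ℝ)] with Λ hΛ
  have h1 : 1 / Λ ≤ Λ := le_trans ((div_le_one (by linarith)).2 hΛ) hΛ
  refine intervalIntegral.integral_mono_on h1 (fS_integrable ha (hx.trans hX) (hy.trans hY) hΛ)
    (fS_integrable ha hx hy hΛ) fun s hs => ?_
  have h0 : 0 < 1 / Λ := by positivity
  have h := fS_jensen (α := Unit) (θ := fun _ => 1) (u := fun _ => x) (v := fun _ => y)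
    (fun _ => zero_le_one) (by simp) (fun _ => hx) (fun _ => hy) ha (lt_of_lt_of_le h0 hs.1)
    (X := X) (Y := Y) (by simpa using hX) (by simpa using hY)
  simpa using h

end Vale.Agent.P358
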