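import Vale.Agent.P358.Pinch
import Vale.Agent.P358.Scalar

/-!
The entropy inequality for amplitude damping with a quantum memory.
-/

namespace Vale.Agent.P358

open Matrix Filter Topology
open scoped ComplexOrder Matrix

variable {ι : Type*} [Fintype ι] [DecidableEq ι]

lemma svd (X : Matrix ι ι ℂ) : ∃ V W : Matrix ι ι ℂ, ∃ t : ι → ℝ, V * Vᴴ = 1 ∧ W * Wᴴ = 1 ∧
    (∀ i, 0 ≤ t i) ∧ X = V * diagonal (fun i => (t i : ℂ)) * Wᴴ := by
  have hA : (Xᴴ * X).PosSemidef := posSemidef_conjTranspose_mul_self X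
  set W : Matrix ι ι ℂ := (hA.isHermitian.eigenvectorUnitary : Matrix ι ι ℂ) with hW
  have hWW : W * Wᴴ = 1 := Unitary.coe_mul_star_self hA.isHermitian.eigenvectorUnitary
  have hWW' : Wᴴ * W = 1 := Unitary.coe_star_mul_self hA.isHermitian.eigenvectorUnitary
  set a := hA.isHermitian.eigenvalues
  set Z := X * W with hZ
  have hZZ : Zᴴ * Z = diagonal fun i => ((a i : ℝ) : ℂ) := by
    rw [hZ, conjTranspose_mul]
    calc Wᴴ * Xᴴ * (X * W) = Wᴴ * (Xᴴ * X) * W := by simp only [Matrix.mul_assoc]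
      _ = Wᴴ * (W * diagonal (fun i => ((a i : ℝ) : ℂ)) * Wᴴ) * W := by
          rw [← spectral_form hA.isHermitian]
      _ = _ := by simp only [Matrix.mul_assoc, hWW', Matrix.mul_one, ← Matrix.mul_assoc Wᴴ,
            Matrix.one_mul]
  have hent : ∀ i j, ∑ k, (starRingEnd ℂ) (Z k i) * Z k j = if i = j then ((a i : ℝ) : ℂ) else 0 := by
    intro i j
    have := congrFun (congrFun hZZ i) j
    simpa [Matrix.mul_apply, diagonal] using this
  set t : ι → ℝ := fun i => Real.sqrt (a i)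
  set v : ι → EuclideanSpace ℂ ι := fun i => WithLp.toLp 2 (fun k => Z k i / (t i : ℂ)) with hv
  set s : Set ι := {i | a i ≠ 0}
  have hort : Orthonormal ℂ (s.domRestrict v) := by
    rw [orthonormal_iff_ite]
    rintro ⟨i, hi⟩ ⟨j, hj⟩
    have hti : t i ≠ 0 := fun h => hi ((Real.sqrt_eq_zero (hA.eigenvalues_nonneg i)).1 h)
    have e : inner ℂ (v i) (v j)
        = (∑ k, (starRingEnd ℂ) (Z k i) * Z k j) / ((t i : ℂ) * (t j : ℂ)) := by
      rw [Finset.sum_div, PiLp.inner_apply]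
      refine Finset.sum_congr rfl fun k _ => ?_
      simp only [hv, RCLike.inner_apply, map_div₀, Complex.conj_ofReal]
      ring
    show inner ℂ (v i) (v j) = _
    rw [e, hent]
    by_cases hij : i = j
    · subst hij
      rw [if_pos rfl, if_pos rfl, ← Complex.ofReal_mul,
        Real.mul_self_sqrt (hA.eigenvalues_nonneg i), div_self]
      exact_mod_cast hi
    · simp [hij, Subtype.ext_iff]
  obtain ⟨b, hb⟩ := hort.exists_orthonormalBasis_extension_of_card_eq (by simp)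
  set V : Matrix ι ι ℂ := fun k i => b i k with hV
  have hVV' : Vᴴ * V = 1 := by
    ext i j
    have := orthonormal_iff_ite.1 b.orthonormal i j
    rw [PiLp.inner_apply] at this
    rw [Matrix.mul_apply, Matrix.one_apply, ← this]
    refine Finset.sum_congr rfl fun k _ => ?_
    show star (b i k) * b j k = inner ℂ (b i k) (b j k)
    simp [RCLike.inner_apply, mul_comm]
  refine ⟨V, W, t, mul_eq_one_comm.1 hVV', hWW, fun i => Real.sqrt_nonneg _, ?_⟩
  have hZeq : Z = V * diagonal (fun i => (t i : ℂ)) := by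
    ext k i
    rw [Matrix.mul_diagonal]
    by_cases hi : a i = 0
    · have h0 := hent i i
      rw [if_pos rfl, hi, Complex.ofReal_zero] at h0
      have h1 : ∑ k, Complex.normSq (Z k i) = 0 := by
        have := congrArg Complex.re h0
        simpa [← Complex.normSq_eq_conj_mul_self] using this
      have := (Finset.sum_eq_zero_iff_of_nonneg fun k _ => Complex.normSq_nonneg _).1 h1 k
        (Finset.mem_univ k)
      rw [Complex.normSq_eq_zero] at this
      simp [this, t, hi]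
    · have hti : t i ≠ 0 := fun h => hi ((Real.sqrt_eq_zero (hA.eigenvalues_nonneg i)).1 h)
      simp only [hV, hb i hi, hv]
      rw [div_mul_cancel₀]
      exact_mod_cast hti
  rw [← hZeq, hZ, Matrix.mul_assoc, hWW, Matrix.mul_one]

/-- The amplitude-damped output in the standard form. -/
noncomputable def dampMat (γ : ℝ) (A C B : Matrix ι ι ℂ) : Matrix (ι ⊕ ι) (ι ⊕ ι) ℂ :=
  fromBlocks (A + (γ : ℂ) • B) ((Real.sqrt (1 - γ) : ℂ) • C)
    ((Real.sqrt (1 - γ) : ℂ) • Cᴴ) (((1 - γ : ℝ) : ℂ) • B)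

lemma posDef_shift {A : Matrix ι ι ℂ} (hA : A.PosSemidef) {s : ℝ} (hs : 0 < s) :
    ((s : ℂ) • (1 : Matrix ι ι ℂ) + A).PosDef :=
  (PosDef.one.smul (Complex.zero_lt_real.2 hs)).add_posSemidef hA

lemma det_shift_comm {κ : Type*} [Fintype κ] [DecidableEq κ] (J : Matrix ι κ ℂ) {s : ℂ}
    (hs : s ≠ 0) (h : Fintype.card ι = Fintype.card κ) :
    (s • (1 : Matrix ι ι ℂ) + J * Jᴴ).det = (s • (1 : Matrix κ κ ℂ) + Jᴴ * J).det := by
  have e1 : s • (1 : Matrix ι ι ℂ) + J * Jᴴ = s • (1 + (s⁻¹ • J) * Jᴴ) := by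
    rw [smul_add, Matrix.smul_mul, smul_smul, mul_inv_cancel₀ hs, one_smul]
  have e2 : s • (1 : Matrix κ κ ℂ) + Jᴴ * J = s • (1 + Jᴴ * (s⁻¹ • J)) := by
    rw [smul_add, Matrix.mul_smul, smul_smul, mul_inv_cancel₀ hs, one_smul]
  rw [e1, e2, det_smul, det_smul, det_one_add_mul_comm, h]

/-- The determinant identity. -/
lemma ldet_damp {γ : ℝ} (hγ0 : 0 ≤ γ) (hγ1 : γ ≤ 1) (t : ι → ℝ) (Y : Matrix ι ι ℂ) {s : ℝ}
    (hs : 0 < s) :
    ldet (dampMat γ (diagonal (fun i => (t i : ℂ)) * diagonal (fun i => (t i : ℂ)))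
        (diagonal (fun i => (t i : ℂ)) * Yᴴ) (Y * Yᴴ)) s
      - ldet ((γ : ℂ) • (Y * Yᴴ)) s - ldet (((1 - γ : ℝ) : ℂ) • (Y * Yᴴ)) s
      = rotLog (edge fun i => Real.sqrt s * t i)
          (fromBlocks ((s : ℂ) • 1 + (γ : ℂ) • (Y * Yᴴ)) 0 0
            ((s : ℂ) • 1 + ((1 - γ : ℝ) : ℂ) • (Yᴴ * Y))) := by
  set T := diagonal (fun i => (t i : ℂ)) with hT
  set l : ℂ := ((Real.sqrt (1 - γ) : ℝ) : ℂ) with hl
  set g : ℂ := ((Real.sqrt γ : ℝ) : ℂ) with hg
  have hTh : Tᴴ = T := by rw [hT, diagonal_conjTranspose]; congr 1; funext i; simp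
  have hll : l * l = ((1 - γ : ℝ) : ℂ) := by
    rw [hl, ← Complex.ofReal_mul, Real.mul_self_sqrt (by linarith)]
  have hgg : g * g = (γ : ℂ) := by rw [hg, ← Complex.ofReal_mul, Real.mul_self_sqrt hγ0]
  have hgs : star g = g := by simp [hg]
  have hls : star l = l := by simp [hl]
  set J : Matrix (ι ⊕ ι) (ι ⊕ ι) ℂ := fromBlocks T (g • Y) (l • Y) 0 with hJ
  have hJ1 : dampMat γ (T * T) (T * Yᴴ) (Y * Yᴴ) = J * Jᴴ := by
    simp [dampMat, hJ, fromBlocks_conjTranspose, fromBlocks_multiply, hTh, hgs, hls, smul_smul,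
      hgg, hll, conjTranspose_mul, ← hl]
  have hJ2 : Jᴴ * J = fromBlocks (T * T + ((1 - γ : ℝ) : ℂ) • (Yᴴ * Y)) (g • (T * Y))
      (g • (Yᴴ * T)) ((γ : ℂ) • (Yᴴ * Y)) := by
    simp [hJ, fromBlocks_conjTranspose, fromBlocks_multiply, hTh, hgs, hls, smul_smul, hgg, hll]
  have hsC : (s : ℂ) ≠ 0 := by exact_mod_cast hs.ne'
  have hγC : (0 : ℂ) ≤ (γ : ℂ) := Complex.zero_le_real.2 hγ0
  have hγC' : (0 : ℂ) ≤ ((1 - γ : ℝ) : ℂ) := Complex.zero_le_real.2 (by linarith)
  set P := (s : ℂ) • (1 : Matrix ι ι ℂ) + (γ : ℂ) • (Y * Yᴴ) with hP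
  set Pt := (s : ℂ) • (1 : Matrix ι ι ℂ) + (γ : ℂ) • (Yᴴ * Y) with hPt
  set P' := (s : ℂ) • (1 : Matrix ι ι ℂ) + ((1 - γ : ℝ) : ℂ) • (Yᴴ * Y) with hP'
  have hPp : P.PosDef := posDef_shift ((posSemidef_self_mul_conjTranspose Y).smul hγC) hs
  have hPtp : Pt.PosDef := posDef_shift ((posSemidef_conjTranspose_mul_self Y).smul hγC) hs
  have hP'p : P'.PosDef := posDef_shift ((posSemidef_conjTranspose_mul_self Y).smul hγC') hs
  have hPd : IsUnit P.det := (Matrix.isUnit_iff_isUnit_det P).1 hPp.isUnit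
  have hPtd : IsUnit Pt.det := (Matrix.isUnit_iff_isUnit_det Pt).1 hPtp.isUnit
  have hcomm : Y * Pt⁻¹ = P⁻¹ * Y := by
    have h : P * Y = Y * Pt := by
      simp [hP, hPt, Matrix.add_mul, Matrix.mul_add, Matrix.mul_assoc]
    calc Y * Pt⁻¹ = P⁻¹ * (P * Y) * Pt⁻¹ := by
          rw [← Matrix.mul_assoc, Matrix.nonsing_inv_mul _ hPd, Matrix.one_mul]
      _ = P⁻¹ * Y * (Pt * Pt⁻¹) := by rw [h]; simp only [Matrix.mul_assoc]
      _ = P⁻¹ * Y := by rw [Matrix.mul_nonsing_inv _ hPtd, Matrix.mul_one]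
  have hid : (γ : ℂ) • (P⁻¹ * (Y * Yᴴ)) = 1 - (s : ℂ) • P⁻¹ := by
    have h := Matrix.nonsing_inv_mul P hPd
    nth_rewrite 2 [hP] at h
    rw [Matrix.mul_add, Matrix.mul_smul, Matrix.mul_smul, Matrix.mul_one] at h
    rw [← h]; abel
  set S := P' + (s : ℂ) • (T * P⁻¹ * T) with hS
  have hM : ((s : ℂ) • (1 : Matrix (ι ⊕ ι) (ι ⊕ ι) ℂ) + Jᴴ * J).det = Pt.det * S.det := by
    rw [hJ2, ← fromBlocks_one, fromBlocks_smul, fromBlocks_add, smul_zero, zero_add, zero_add,
      ← hPt]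
    have := hPtp.isUnit.invertible
    rw [det_fromBlocks₂₂]
    congr 2
    rw [invOf_eq_nonsing_inv]
    calc (s : ℂ) • 1 + (T * T + ((1 - γ : ℝ) : ℂ) • (Yᴴ * Y))
          - g • (T * Y) * Pt⁻¹ * g • (Yᴴ * T)
        = P' + T * T - T * ((γ : ℂ) • (P⁻¹ * (Y * Yᴴ))) * T := by
          simp only [Matrix.smul_mul, Matrix.mul_smul, smul_smul, hgg, hP']
          rw [Matrix.mul_assoc T Y, hcomm]
          simp only [Matrix.mul_assoc]
          abel
      _ = S := by
          rw [hid, hS]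
          simp only [Matrix.mul_sub, Matrix.sub_mul, Matrix.mul_one, Matrix.mul_smul,
            Matrix.smul_mul]
          abel
  have hedge : (Complex.I • edge fun i => Real.sqrt s * t i)
      = fromBlocks 0 ((Complex.I * ((Real.sqrt s : ℝ) : ℂ)) • T)
          ((Complex.I * ((Real.sqrt s : ℝ) : ℂ)) • T) 0 := by
    simp [edge, fromBlocks_smul, hT, ← diagonal_smul, Pi.smul_def, mul_assoc]
  have hQ : (fromBlocks P 0 0 P' + Complex.I • edge fun i => Real.sqrt s * t i).det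
      = P.det * S.det := by
    rw [hedge, fromBlocks_add]
    simp only [add_zero, zero_add]
    have := hPp.isUnit.invertible
    rw [det_fromBlocks₁₁, invOf_eq_nonsing_inv]
    congr 2
    have e : (Complex.I * ((Real.sqrt s : ℝ) : ℂ)) * (Complex.I * ((Real.sqrt s : ℝ) : ℂ))
        = -(s : ℂ) := by
      rw [mul_mul_mul_comm, Complex.I_mul_I, ← Complex.ofReal_mul, Real.mul_self_sqrt hs.le]
      ring
    simp only [Matrix.smul_mul, Matrix.mul_smul, smul_smul, e, hS, neg_smul, sub_neg_eq_add]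
  have hdetPt : Pt.det = P.det := by
    have h := det_shift_comm (g • Y) hsC rfl
    simp only [conjTranspose_smul, hgs, Matrix.smul_mul, Matrix.mul_smul, smul_smul, hgg] at h
    exact h.symm
  have hdetP' : P'.det = ((s : ℂ) • (1 : Matrix ι ι ℂ) + ((1 - γ : ℝ) : ℂ) • (Y * Yᴴ)).det := by
    have h := det_shift_comm (l • Y) hsC rfl
    simp only [conjTranspose_smul, hls, Matrix.smul_mul, Matrix.mul_smul, smul_smul, hll] at h
    exact h.symm
  have hne : P.det ≠ 0 := hPd.ne_zero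
  have hne' : P'.det ≠ 0 := hP'p.det_pos.ne'
  have hSne : S.det ≠ 0 := by
    have h := norm_det_ne_zero_of_posDef_add (posDef_blocks hPp hP'p)
      (edge_isHermitian fun i => Real.sqrt s * t i)
    rw [hQ] at h
    exact (mul_ne_zero_iff.1 h).2
  rw [ldet, ldet, ldet, hJ1, det_shift_comm J hsC rfl, hM, ← hdetP', ← hP, hdetPt, rotLog, hQ,
    det_fromBlocks_zero₁₂, norm_mul, norm_mul,
    Real.log_mul (norm_ne_zero_iff.2 hne) (norm_ne_zero_iff.2 hSne),
    Real.log_mul (norm_ne_zero_iff.2 hne) (norm_ne_zero_iff.2 hne')]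
  ring

lemma rotLog_diag (τ u w : ι → ℝ) (hu : ∀ i, 0 < u i) (hw : ∀ i, 0 < w i) :
    rotLog (edge τ) (fromBlocks (diagonal fun i => (u i : ℂ)) 0 0 (diagonal fun i => (w i : ℂ)))
      = ∑ i, Real.log (1 + τ i ^ 2 / (u i * w i)) := by
  have hup : (diagonal fun i => (u i : ℂ)).PosDef :=
    Matrix.PosDef.diagonal fun i => Complex.zero_lt_real.2 (hu i)
  have := hup.isUnit.invertible
  have hinv : (diagonal fun i => (u i : ℂ))⁻¹ = diagonal fun i => (((u i)⁻¹ : ℝ) : ℂ) := by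
    refine Matrix.inv_eq_right_inv ?_
    rw [diagonal_mul_diagonal, ← diagonal_one]
    congr 1; funext i
    rw [← Complex.ofReal_mul, mul_inv_cancel₀ (hu i).ne', Complex.ofReal_one]
  have e : (fromBlocks (diagonal fun i => (u i : ℂ)) 0 0 (diagonal fun i => (w i : ℂ))
        + Complex.I • edge τ).det
      = (∏ i, (u i : ℂ)) * ∏ i, ((w i + τ i ^ 2 / u i : ℝ) : ℂ) := by
    rw [edge, fromBlocks_smul, smul_zero, fromBlocks_add]
    simp only [add_zero, zero_add]
    rw [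
      det_fromBlocks₁₁, invOf_eq_nonsing_inv, hinv, ← diagonal_smul, diagonal_mul_diagonal,
      diagonal_mul_diagonal, diagonal_sub, det_diagonal, det_diagonal]
    congr 1
    refine Finset.prod_congr rfl fun i _ => ?_
    simp only [Pi.smul_apply, smul_eq_mul]
    push_cast
    linear_combination (-(τ i : ℂ) ^ 2 * (u i : ℂ)⁻¹) * Complex.I_mul_I
  have hx : ∀ i, 0 < w i + τ i ^ 2 / u i := fun i =>
    add_pos_of_pos_of_nonneg (hw i) (div_nonneg (sq_nonneg _) (hu i).le)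
  rw [rotLog, e, det_fromBlocks_zero₁₂, det_diagonal, det_diagonal]
  simp only [norm_mul, norm_prod, Complex.norm_real, Real.norm_eq_abs]
  simp only [abs_of_pos (hu _), abs_of_pos (hw _), abs_of_pos (hx _)]
  rw [Real.log_mul (Finset.prod_ne_zero_iff.2 fun i _ => (hu i).ne')
      (Finset.prod_ne_zero_iff.2 fun i _ => (hx i).ne'),
    Real.log_mul (Finset.prod_ne_zero_iff.2 fun i _ => (hu i).ne')
      (Finset.prod_ne_zero_iff.2 fun i _ => (hw i).ne'), add_sub_add_left_eq_sub,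
    Real.log_prod (fun i _ => (hx i).ne'), Real.log_prod (fun i _ => (hw i).ne'),
    ← Finset.sum_sub_distrib]
  refine Finset.sum_congr rfl fun i _ => ?_
  rw [← Real.log_div (hx i).ne' (hw i).ne']
  congr 1
  have := (hu i).ne'
  have := (hw i).ne'
  field_simp

/-- The core inequality in a basis where the first factor is diagonal. -/
lemma core_ineq {γ : ℝ} (hγ0 : 0 ≤ γ) (hγ1 : γ ≤ 1) (t : ι → ℝ) (Y : Matrix ι ι ℂ) :
    lFun (∑ i, t i ^ 2) (γ * (Y * Yᴴ).trace.re) ((1 - γ) * (Y * Yᴴ).trace.re)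
      ≤ eSum (dampMat γ (diagonal (fun i => (t i : ℂ)) * diagonal (fun i => (t i : ℂ)))
          (diagonal (fun i => (t i : ℂ)) * Yᴴ) (Y * Yᴴ))
        - eSum (diagonal (fun i => (t i : ℂ)) * diagonal (fun i => (t i : ℂ)))
        - eSum ((γ : ℂ) • (Y * Yᴴ)) - eSum (((1 - γ : ℝ) : ℂ) • (Y * Yᴴ)) := by
  set T := diagonal (fun i => (t i : ℂ)) with hT
  set b : ι → ℝ := fun i => ((Y * Yᴴ) i i).re with hb
  set b' : ι → ℝ := fun i => ((Yᴴ * Y) i i).re with hb'
  have hBp := posSemidef_self_mul_conjTranspose Y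
  have hB'p := posSemidef_conjTranspose_mul_self Y
  have hb0 : ∀ i, 0 ≤ b i := fun i => (Complex.nonneg_iff.1 hBp.diag_nonneg).1
  have hb'0 : ∀ i, 0 ≤ b' i := fun i => (Complex.nonneg_iff.1 hB'p.diag_nonneg).1
  have hbe : ∀ i, (Y * Yᴴ) i i = (b i : ℂ) := fun i =>
    Complex.ext rfl (by simpa using ((Complex.nonneg_iff.1 hBp.diag_nonneg).2).symm)
  have hbe' : ∀ i, (Yᴴ * Y) i i = (b' i : ℂ) := fun i =>
    Complex.ext rfl (by simpa using ((Complex.nonneg_iff.1 hB'p.diag_nonneg).2).symm)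
  have hTT : T * T = diagonal fun i => ((t i ^ 2 : ℝ) : ℂ) := by
    rw [hT, diagonal_mul_diagonal]; congr 1; funext i; push_cast; ring
  have hA : (T * T).PosSemidef := by
    rw [hTT]; exact PosSemidef.diagonal fun i => Complex.zero_le_real.2 (sq_nonneg _)
  have hγC : (0 : ℂ) ≤ (γ : ℂ) := Complex.zero_le_real.2 hγ0
  have hγC' : (0 : ℂ) ≤ ((1 - γ : ℝ) : ℂ) := Complex.zero_le_real.2 (by linarith)
  have hB1 : ((γ : ℂ) • (Y * Yᴴ)).PosSemidef := hBp.smul hγC
  have hB2 : (((1 - γ : ℝ) : ℂ) • (Y * Yᴴ)).PosSemidef := hBp.smul hγC'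
  set M := dampMat γ (T * T) (T * Yᴴ) (Y * Yᴴ) with hM
  have hMp : M.PosSemidef := by
    have hll : ((Real.sqrt (1 - γ) : ℝ) : ℂ) * ((Real.sqrt (1 - γ) : ℝ) : ℂ)
        = ((1 - γ : ℝ) : ℂ) := by rw [← Complex.ofReal_mul, Real.mul_self_sqrt (by linarith)]
    have hgg : ((Real.sqrt γ : ℝ) : ℂ) * ((Real.sqrt γ : ℝ) : ℂ) = (γ : ℂ) := by
      rw [← Complex.ofReal_mul, Real.mul_self_sqrt hγ0]
    have hTh : Tᴴ = T := by rw [hT, diagonal_conjTranspose]; congr 1; funext i; simp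
    obtain ⟨g, hg⟩ : ∃ g : ℂ, g = ((Real.sqrt γ : ℝ) : ℂ) := ⟨_, rfl⟩
    obtain ⟨l, hl⟩ : ∃ l : ℂ, l = ((Real.sqrt (1 - γ) : ℝ) : ℂ) := ⟨_, rfl⟩
    have hgs : star g = g := by simp [hg]
    have hls : star l = l := by simp [hl]
    rw [← hg] at hgg
    rw [← hl] at hll
    have e : M = fromBlocks T (g • Y) (l • Y) 0 * (fromBlocks T (g • Y) (l • Y) 0)ᴴ := by
      simp [hM, dampMat, fromBlocks_conjTranspose, fromBlocks_multiply, hTh, smul_smul, hll, hgg,
        hgs, hls, conjTranspose_mul, ← hl]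
    rw [e]; exact posSemidef_self_mul_conjTranspose _
  have hlim := (((eSum_limit hMp).sub (eSum_limit hA)).sub (eSum_limit hB1)).sub (eSum_limit hB2)
  have htr : M.trace.re = (T * T).trace.re + ((γ : ℂ) • (Y * Yᴴ)).trace.re
      + (((1 - γ : ℝ) : ℂ) • (Y * Yᴴ)).trace.re := by
    simp only [hM, dampMat, Matrix.trace, Fintype.sum_sum_type, Matrix.diag_apply,
      fromBlocks_apply₁₁, fromBlocks_apply₂₂, Matrix.add_apply, Finset.sum_add_distrib]
    simp
  have hsum : Tendsto (fun Λ => ∑ i, ∫ s in (1 / Λ)..Λ, fS (t i ^ 2) (γ * b i) ((1 - γ) * b' i) s)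
      atTop (𝓝 (∑ i, lFun (t i ^ 2) (γ * b i) ((1 - γ) * b' i))) :=
    tendsto_finsetSum _ fun i _ => fS_limit (sq_nonneg _) (mul_nonneg hγ0 (hb0 i))
      (mul_nonneg (by linarith) (hb'0 i))
  have hstep : ∑ i, lFun (t i ^ 2) (γ * b i) ((1 - γ) * b' i)
      ≤ eSum M - eSum (T * T) - eSum ((γ : ℂ) • (Y * Yᴴ))
        - eSum (((1 - γ : ℝ) : ℂ) • (Y * Yᴴ)) := by
    refine le_of_tendsto_of_tendsto hsum hlim ?_
    filter_upwards [eventually_ge_atTop (1 : ℝ)] with Λ hΛ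
    have h1 : 1 / Λ ≤ Λ := le_trans ((div_le_one (by linarith)).2 hΛ) hΛ
    have h0 : 0 < 1 / Λ := by positivity
    have hI := fun i => fS_integrable (sq_nonneg (t i)) (mul_nonneg hγ0 (hb0 i))
      (mul_nonneg (by linarith : 0 ≤ 1 - γ) (hb'0 i)) hΛ
    have c0 : IntervalIntegrable (fun s => Real.log (s + 0)) MeasureTheory.volume (1 / Λ) Λ :=
      (continuousOn_log_add hΛ le_rfl).intervalIntegrable
    have iM := intervalIntegrable_ldet hMp hΛ
    have iA := intervalIntegrable_ldet hA hΛ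
    have i1 := intervalIntegrable_ldet hB1 hΛ
    have i2 := intervalIntegrable_ldet hB2 hΛ
    have ic := c0.const_mul (Fintype.card ι : ℝ)
    have hint : (∫ s in (1 / Λ)..Λ, ∑ i, fS (t i ^ 2) (γ * b i) ((1 - γ) * b' i) s)
        ≤ ∫ s in (1 / Λ)..Λ, (ldet M s - ldet (T * T) s - ldet ((γ : ℂ) • (Y * Yᴴ)) s
            - ldet (((1 - γ : ℝ) : ℂ) • (Y * Yᴴ)) s
            + (Fintype.card ι : ℝ) * Real.log (s + 0)) := by
      refine intervalIntegral.integral_mono_on h1 ?_ ((((iM.sub iA).sub i1).sub i2).add ic) ?_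
      · have := IntervalIntegrable.sum Finset.univ (fun i _ => hI i)
        simpa [Finset.sum_fn] using this
      intro s hs
      have hs0 : 0 < s := lt_of_lt_of_le h0 hs.1
      have hd := ldet_damp hγ0 hγ1 t Y hs0
      set P := (s : ℂ) • (1 : Matrix ι ι ℂ) + (γ : ℂ) • (Y * Yᴴ)
      set P' := (s : ℂ) • (1 : Matrix ι ι ℂ) + ((1 - γ : ℝ) : ℂ) • (Yᴴ * Y)
      have hp := (rotLog_pinch (fun i => Real.sqrt s * t i) (posDef_shift hB1 hs0)
        (posDef_shift (hB'p.smul hγC') hs0) Finset.univ).2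
      rw [pinch_all, pinch_all] at hp
      have ep : (fun i => P i i) = fun i => ((s + γ * b i : ℝ) : ℂ) := by
        funext i; simp [P, hbe]
      have ep' : (fun i => P' i i) = fun i => ((s + (1 - γ) * b' i : ℝ) : ℂ) := by
        funext i; simp [P', hbe']
      rw [ep, ep', rotLog_diag _ _ _ (fun i => by have := mul_nonneg hγ0 (hb0 i); linarith)
        (fun i => by have := mul_nonneg (by linarith : 0 ≤ 1 - γ) (hb'0 i); linarith)] at hp
      have hAl : ldet (T * T) s = ∑ i, Real.log (s + t i ^ 2) := by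
        have hx : ∀ i, 0 < s + t i ^ 2 := fun i => by positivity
        rw [ldet, hTT, smul_one_eq_diagonal, diagonal_add, det_diagonal, norm_prod]
        simp only [← Complex.ofReal_add, Complex.norm_real, Real.norm_eq_abs]
        simp only [abs_of_pos (hx _)]
        exact Real.log_prod (fun i _ => (hx i).ne')
      rw [add_zero, hAl]
      simp only [fS, Finset.sum_sub_distrib, Finset.sum_const, Finset.card_univ, nsmul_eq_mul]
      have e : ∀ i, (Real.sqrt s * t i) ^ 2 = s * t i ^ 2 := fun i => by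
        rw [mul_pow, Real.sq_sqrt hs0.le]
      simp only [e] at hp
      linarith
    rw [intervalIntegral.integral_finsetSum (fun i _ => hI i),
      intervalIntegral.integral_add (((iM.sub iA).sub i1).sub i2) ic,
      intervalIntegral.integral_sub ((iM.sub iA).sub i1) i2,
      intervalIntegral.integral_sub (iM.sub iA) i1, intervalIntegral.integral_sub iM iA,
      intervalIntegral.integral_const_mul] at hint
    rw [htr]
    simp only [Fintype.card_sum, Nat.cast_add]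
    simp only [logInt] at hint ⊢
    linarith
  refine le_trans ?_ hstep
  refine le_trans (le_of_eq ?_) (lFun_subadd (fun i => sq_nonneg _)
    (fun i => mul_nonneg hγ0 (hb0 i)) (fun i => mul_nonneg (by linarith) (hb'0 i)))
  have hq : (Y * Yᴴ).trace.re = ∑ i, b i := by simp [Matrix.trace, hb]
  have hq' : ∑ i, b' i = ∑ i, b i := by
    rw [← hq, Matrix.trace_mul_comm]; simp [Matrix.trace, hb']
  rw [← Finset.mul_sum, ← Finset.mul_sum, hq', hq]

end Vale.Agent.P358
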