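import Vale.Agent.P358.Core

/-!
The inequality with a memory of any dimension.
-/

namespace Vale.Agent.P358

open Matrix
open scoped ComplexOrder Matrix

variable {d : Type*} [Fintype d] [DecidableEq d]

theorem key_damp {γ : ℝ} (hγ0 : 0 ≤ γ) (hγ1 : γ ≤ 1) {A C B : Matrix d d ℂ}
    (hρ : (fromBlocks A C Cᴴ B).PosSemidef) :
    eSum A + eSum B
      + (Real.negMulLog (muP A.trace.re (γ * B.trace.re) ((1 - γ) * B.trace.re))
        + Real.negMulLog (muM A.trace.re (γ * B.trace.re) ((1 - γ) * B.trace.re))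
        - Real.negMulLog A.trace.re - Real.negMulLog B.trace.re)
      ≤ eSum (dampMat γ A C B) := by
  have hAh : A.IsHermitian := by
    unfold Matrix.IsHermitian; simpa [fromBlocks_conjTranspose] using congrArg Matrix.toBlocks₁₁ hρ.isHermitian.eq
  have hBh : B.IsHermitian := by
    unfold Matrix.IsHermitian; simpa [fromBlocks_conjTranspose] using congrArg Matrix.toBlocks₂₂ hρ.isHermitian.eq
  set U : Matrix (d ⊕ d) (d ⊕ d) ℂ := (hρ.isHermitian.eigenvectorUnitary : Matrix (d ⊕ d) (d ⊕ d) ℂ)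
  set G := U * diagonal (fun i => ((Real.sqrt (hρ.isHermitian.eigenvalues i) : ℝ) : ℂ)) with hG
  have hGG : G * Gᴴ = fromBlocks A C Cᴴ B := by
    rw [hG, conjTranspose_mul, diagonal_conjTranspose, ← Matrix.mul_assoc, Matrix.mul_assoc U,
      diagonal_mul_diagonal]
    conv_rhs => rw [spectral_form hρ.isHermitian]
    simp only [U]
    congr 3
    funext i
    simp only [Pi.star_apply, Complex.star_def, Complex.conj_ofReal]
    rw [← Complex.ofReal_mul, Real.mul_self_sqrt (hρ.eigenvalues_nonneg i)]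
  set Gx : Matrix d (d ⊕ d) ℂ := G.submatrix Sum.inl id with hGx
  set Gy : Matrix d (d ⊕ d) ℂ := G.submatrix Sum.inr id with hGy
  have eA : Gx * Gxᴴ = A := by
    ext i j
    have h := congrFun (congrFun hGG (Sum.inl i)) (Sum.inl j)
    simpa [Matrix.mul_apply, hGx] using h
  have eC : Gx * Gyᴴ = C := by
    ext i j
    have h := congrFun (congrFun hGG (Sum.inl i)) (Sum.inr j)
    simpa [Matrix.mul_apply, hGx, hGy] using h
  have eB : Gy * Gyᴴ = B := by
    ext i j
    have h := congrFun (congrFun hGG (Sum.inr i)) (Sum.inr j)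
    simpa [Matrix.mul_apply, hGy] using h
  set X : Matrix (d ⊕ d) (d ⊕ d) ℂ := fromRows Gx 0 with hX
  set Y : Matrix (d ⊕ d) (d ⊕ d) ℂ := fromRows Gy 0 with hY
  have pad : ∀ (P Q : Matrix d (d ⊕ d) ℂ),
      fromRows P (0 : Matrix d (d ⊕ d) ℂ) * (fromRows Q (0 : Matrix d (d ⊕ d) ℂ))ᴴ
        = fromBlocks (P * Qᴴ) 0 0 0 := by
    intro P Q
    ext i j
    rcases i with i | i <;> rcases j with j | j <;>
      simp [Matrix.mul_apply]
  have eA' : X * Xᴴ = fromBlocks A 0 0 0 := by rw [hX, pad, eA]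
  have eC' : X * Yᴴ = fromBlocks C 0 0 0 := by rw [hX, hY, pad, eC]
  have eB' : Y * Yᴴ = fromBlocks B 0 0 0 := by rw [hY, pad, eB]
  obtain ⟨V, W, t, hV, hW, ht, hXe⟩ := svd X
  have hV' : Vᴴ * V = 1 := mul_eq_one_comm.1 hV
  have hW' : Wᴴ * W = 1 := mul_eq_one_comm.1 hW
  set T := diagonal (fun i => (t i : ℂ)) with hT
  set Y₀ := Vᴴ * Y * W with hY₀
  have hTh : Tᴴ = T := by rw [hT, diagonal_conjTranspose]; congr 1; funext i; simp
  have hYe : Y = V * Y₀ * Wᴴ := by
    rw [hY₀, ← Matrix.mul_assoc, ← Matrix.mul_assoc, hV, Matrix.one_mul, Matrix.mul_assoc, hW,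
      Matrix.mul_one]
  have sand : ∀ P Q : Matrix (d ⊕ d) (d ⊕ d) ℂ,
      (V * P * Wᴴ) * (V * Q * Wᴴ)ᴴ = V * (P * Qᴴ) * Vᴴ := by
    intro P Q
    simp only [conjTranspose_mul, conjTranspose_conjTranspose, Matrix.mul_assoc]
    rw [← Matrix.mul_assoc Wᴴ W, hW', Matrix.one_mul]
  have fA : X * Xᴴ = V * (T * T) * Vᴴ := by rw [hXe, sand, hTh]
  have fC : X * Yᴴ = V * (T * Y₀ᴴ) * Vᴴ := by rw [hXe, hYe, sand]
  have fB : Y * Yᴴ = V * (Y₀ * Y₀ᴴ) * Vᴴ := by rw [hYe, sand]
  have hTT : (T * T).IsHermitian := by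
    have := (posSemidef_self_mul_conjTranspose T).isHermitian
    rwa [hTh] at this
  have hYY : (Y₀ * Y₀ᴴ).IsHermitian := (posSemidef_self_mul_conjTranspose Y₀).isHermitian
  have hV2 : fromBlocks V 0 0 V * (fromBlocks V 0 0 V)ᴴ = 1 := by
    simp [fromBlocks_conjTranspose, fromBlocks_multiply, hV]
  have hdh : ∀ {m : Type _} [Fintype m] [DecidableEq m] (P R Q : Matrix m m ℂ),
      P.IsHermitian → Q.IsHermitian → (dampMat γ P R Q).IsHermitian := by
    intro m _ _ P R Q hP hQ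
    refine Matrix.IsHermitian.fromBlocks ?_ (by simp [conjTranspose_smul]) ?_
    · simp [Matrix.IsHermitian, conjTranspose_add, conjTranspose_smul, hP.eq, hQ.eq]
    · simp [Matrix.IsHermitian, conjTranspose_smul, hQ.eq]
  have hM : dampMat γ (X * Xᴴ) (X * Yᴴ) (Y * Yᴴ)
      = fromBlocks V 0 0 V * dampMat γ (T * T) (T * Y₀ᴴ) (Y₀ * Y₀ᴴ)
        * (fromBlocks V 0 0 V)ᴴ := by
    rw [fA, fC, fB]
    simp [dampMat, fromBlocks_conjTranspose, fromBlocks_multiply, conjTranspose_mul,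
      Matrix.mul_add, Matrix.add_mul, Matrix.mul_assoc, hTh]
  have s1 : eSum (dampMat γ (T * T) (T * Y₀ᴴ) (Y₀ * Y₀ᴴ)) = eSum (dampMat γ A C B) := by
    rw [← eSum_unitary hV2 (hdh _ _ _ hTT hYY), ← hM, eA', eC', eB']
    have e : dampMat γ (fromBlocks A 0 0 0) (fromBlocks C 0 0 0) (fromBlocks B 0 0 0)
        = (fromBlocks (dampMat γ A C B) 0 0 (0 : Matrix (d ⊕ d) (d ⊕ d) ℂ)).submatrix
          (Equiv.sumSumSumComm d d d d) (Equiv.sumSumSumComm d d d d) := by
      ext i j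
      rcases i with (i | i) | (i | i) <;> rcases j with (j | j) | (j | j) <;>
        simp [dampMat, Equiv.sumSumSumComm, fromBlocks_conjTranspose]
    have h := eSum_reindex (Equiv.sumSumSumComm d d d d).symm
      (Matrix.IsHermitian.fromBlocks (hdh A C B hAh hBh)
        (by simp : (0 : Matrix (d ⊕ d) (d ⊕ d) ℂ)ᴴ = 0) isHermitian_zero)
    rw [Equiv.symm_symm] at h
    rw [e, h, eSum_fromBlocks (hdh A C B hAh hBh) isHermitian_zero, eSum_zero, add_zero]
  have s2 : eSum (T * T) = eSum A := by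
    rw [← eSum_unitary hV hTT, ← fA, eA', eSum_fromBlocks hAh isHermitian_zero, eSum_zero,
      add_zero]
  have s3 : eSum (Y₀ * Y₀ᴴ) = eSum B := by
    rw [← eSum_unitary hV hYY, ← fB, eB', eSum_fromBlocks hBh isHermitian_zero, eSum_zero,
      add_zero]
  have trV : ∀ P : Matrix (d ⊕ d) (d ⊕ d) ℂ, (V * P * Vᴴ).trace = P.trace := fun P => by
    rw [Matrix.trace_mul_comm, ← Matrix.mul_assoc, hV', Matrix.one_mul]
  have q1 : (Y₀ * Y₀ᴴ).trace.re = B.trace.re := by
    rw [← trV, ← fB, eB']; simp [Matrix.trace, Fintype.sum_sum_type]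
  have p1 : ∑ i, t i ^ 2 = A.trace.re := by
    have : (T * T).trace.re = ∑ i, t i ^ 2 := by
      rw [hT, diagonal_mul_diagonal, trace_diagonal, Complex.re_sum]
      simp [pow_two]
    rw [← this, ← trV, ← fA, eA']; simp [Matrix.trace, Fintype.sum_sum_type]
  have h := core_ineq hγ0 hγ1 t Y₀
  simp only [← hT] at h
  rw [s1, s2, eSum_real_smul hYY, eSum_real_smul hYY, s3, q1, p1] at h
  simp only [lFun, Real.negMulLog_mul] at h
  linarith

end Vale.Agent.P358
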