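import Vale.Agent.P358.Capacity
import Vale.Agent.P358.Key0

/-!
Amplitude damping (ν = 0): the one-site inequality and convexity of the pure output entropy.
-/

namespace Vale.Agent.P358

open Matrix Real
open scoped ComplexOrder Matrix

lemma outDet_zero (γ q : ℝ) : outDet γ 0 q = γ * (1 - γ) * q ^ 2 := by
  simp only [outDet, tOut]; ring

lemma keyHyp_zero {γ : ℝ} (hγ0 : 0 ≤ γ) (hγ1 : γ ≤ 1) : KeyHyp γ 0 := by
  intro n A C B hρ
  have h := key_damp hγ0 hγ1 hρ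
  have e : fromBlocks (((1 - γ * 0 : ℝ) : ℂ) • A + ((γ * (1 - 0) : ℝ) : ℂ) • B)
      (((Real.sqrt (1 - γ) : ℝ) : ℂ) • C) (((Real.sqrt (1 - γ) : ℝ) : ℂ) • Cᴴ)
      (((γ * 0 : ℝ) : ℂ) • A + ((1 - γ * (1 - 0) : ℝ) : ℂ) • B) = dampMat γ A C B := by
    simp [dampMat]
  rw [e]
  refine le_trans (le_of_eq ?_) h
  have hA : 0 ≤ A.trace.re := by
    have : A.PosSemidef := hρ.submatrix Sum.inl
    exact (Complex.nonneg_iff.1 this.trace_nonneg).1
  have hB : 0 ≤ B.trace.re := by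
    have : B.PosSemidef := hρ.submatrix Sum.inr
    exact (Complex.nonneg_iff.1 this.trace_nonneg).1
  set p := A.trace.re
  set q := B.trace.re
  rcases eq_or_lt_of_le (add_nonneg hA hB) with hT | hT
  · have : p = 0 ∧ q = 0 := ⟨by linarith, by linarith⟩
    simp [this.1, this.2, muP, muM]
  set T := p + q with hTdef
  set x := (1 + Real.sqrt (1 - 4 * outDet γ 0 (q / T))) / 2 with hx
  have hs : Real.sqrt ((p + γ * q + (1 - γ) * q) ^ 2 - 4 * (γ * q * ((1 - γ) * q)))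
      = T * Real.sqrt (1 - 4 * outDet γ 0 (q / T)) := by
    rw [show (p + γ * q + (1 - γ) * q) ^ 2 - 4 * (γ * q * ((1 - γ) * q))
      = T ^ 2 * (1 - 4 * outDet γ 0 (q / T)) by
        have key : T ^ 2 * (q / T) ^ 2 = q ^ 2 := by
          rw [← mul_pow, mul_div_cancel₀ _ hT.ne']
        rw [outDet_zero]
        linear_combination 4 * γ * (1 - γ) * key - (p + q + T) * hTdef,
      Real.sqrt_mul (sq_nonneg T), Real.sqrt_sq hT.le]
  have hP : muP p (γ * q) ((1 - γ) * q) = T * x := by rw [muP, hs, hx, hTdef]; ring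
  have hM : muM p (γ * q) ((1 - γ) * q) = T * (1 - x) := by rw [muM, hs, hx, hTdef]; ring
  rw [hP, hM, negMulLog_mul, negMulLog_mul, gOut, ← hx,
    binEntropy_eq_negMulLog_add_negMulLog_one_sub]
  ring

/-- Entropy as a function of the concurrence. -/
noncomputable def concEnt (c : ℝ) : ℝ := Real.binEntropy ((1 + Real.sqrt (1 - c ^ 2)) / 2)

lemma concEnt_convex : ConvexOn ℝ (Set.Icc 0 1) concEnt := by
  set d1 : ℝ → ℝ := fun c => c * ((Real.log (1 + Real.sqrt (1 - c ^ 2))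
    - Real.log (1 - Real.sqrt (1 - c ^ 2))) / (2 * Real.sqrt (1 - c ^ 2))) with hd1
  set d2 : ℝ → ℝ := fun c => ((Real.log (1 + Real.sqrt (1 - c ^ 2))
    - Real.log (1 - Real.sqrt (1 - c ^ 2))) / 2 - Real.sqrt (1 - c ^ 2))
      / Real.sqrt (1 - c ^ 2) ^ 3 with hd2
  have hcont : Continuous concEnt := Real.binEntropy_continuous.comp (by fun_prop)
  have basic : ∀ c ∈ Set.Ioo (0 : ℝ) 1, 0 < Real.sqrt (1 - c ^ 2) ∧ Real.sqrt (1 - c ^ 2) < 1
      ∧ Real.sqrt (1 - c ^ 2) ^ 2 = 1 - c ^ 2 := by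
    intro c hc
    have h1 : 0 < 1 - c ^ 2 := by nlinarith [hc.1, hc.2]
    refine ⟨Real.sqrt_pos.2 h1, ?_, Real.sq_sqrt h1.le⟩
    rw [Real.sqrt_lt' one_pos]
    nlinarith [hc.1]
  have hr : ∀ c ∈ Set.Ioo (0 : ℝ) 1,
      HasDerivAt (fun c => Real.sqrt (1 - c ^ 2)) (-c / Real.sqrt (1 - c ^ 2)) c := by
    intro c hc
    obtain ⟨h0, -, -⟩ := basic c hc
    have h1 : HasDerivAt (fun c : ℝ => 1 - c ^ 2) (-(2 * c)) c := by
      simpa using ((hasDerivAt_pow 2 c).const_sub 1)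
    refine (h1.sqrt (Real.sqrt_pos.1 h0).ne').congr_deriv ?_
    field_simp
  have hf1 : ∀ c ∈ Set.Ioo (0 : ℝ) 1, HasDerivAt concEnt (d1 c) c := by
    intro c hc
    obtain ⟨h0, h1, -⟩ := basic c hc
    have hin := ((hr c hc).const_add 1).div_const 2
    have hb := Real.hasDerivAt_binEntropy (p := (1 + Real.sqrt (1 - c ^ 2)) / 2)
      (by linarith) (by linarith)
    refine (hb.comp c hin).congr_deriv ?_
    simp only [hd1]
    set r := Real.sqrt (1 - c ^ 2)
    have e1 : 1 - (1 + r) / 2 = (1 - r) / 2 := by ring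
    rw [e1, Real.log_div (by linarith) two_ne_zero, Real.log_div (by linarith) two_ne_zero]
    field_simp
    ring
  have hf2 : ∀ c ∈ Set.Ioo (0 : ℝ) 1, HasDerivAt d1 (d2 c) c := by
    intro c hc
    obtain ⟨h0, h1, hsq⟩ := basic c hc
    have hl := (((hr c hc).const_add 1).log (by linarith)).sub
      (((hr c hc).const_sub 1).log (by linarith))
    have := (hasDerivAt_id c).mul (hl.div ((hr c hc).const_mul 2) (by positivity))
    refine this.congr_deriv ?_
    simp only [hd2, id_eq, Pi.sub_apply, Pi.div_apply]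
    set r := Real.sqrt (1 - c ^ 2)
    have hp : (1 + r) ≠ 0 := by linarith
    have hm : (1 - r) ≠ 0 := by linarith
    field_simp
    linear_combination -(2 * r - (1 - r ^ 2) * (Real.log (1 + r) - Real.log (1 - r))) * hsq
  refine convexOn_of_hasDerivWithinAt2_nonneg (convex_Icc 0 1) hcont.continuousOn
    (f' := d1) (f'' := d2) ?_ ?_ ?_ <;> rw [interior_Icc]
  · exact fun c hc => (hf1 c hc).hasDerivWithinAt
  · exact fun c hc => (hf2 c hc).hasDerivWithinAt
  · intro c hc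
    obtain ⟨h0, h1, -⟩ := basic c hc
    set r := Real.sqrt (1 - c ^ 2) with hrdef
    have hlog : 2 * r ≤ Real.log (1 + r) - Real.log (1 - r) := by
      have hs := Real.hasSum_log_sub_log_of_abs_lt_one (x := r) (by rw [abs_of_pos h0]; exact h1)
      have := le_hasSum hs 0 (fun j _ => by positivity)
      simpa using this
    simp only [hd2, ← hrdef]
    exact div_nonneg (by linarith) (by positivity)

lemma gOut_zero_convex {γ : ℝ} (hγ0 : 0 ≤ γ) (hγ1 : γ ≤ 1) :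
    ConvexOn ℝ (Set.Icc 0 1) (gOut γ 0) := by
  set k := 2 * Real.sqrt (γ * (1 - γ)) with hk
  have hnn : 0 ≤ γ * (1 - γ) := mul_nonneg hγ0 (by linarith)
  have hk0 : 0 ≤ k := by positivity
  have hk1 : k ≤ 1 := by
    have : k ^ 2 ≤ 1 := by
      rw [hk, mul_pow, Real.sq_sqrt hnn]; nlinarith [sq_nonneg (2 * γ - 1)]
    nlinarith
  have e : ∀ q, gOut γ 0 q = concEnt (k * q) := by
    intro q
    rw [gOut, concEnt, outDet_zero, hk, mul_pow, mul_pow, Real.sq_sqrt hnn]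
    ring_nf
  refine ⟨convex_Icc 0 1, fun x hx y hy a b ha hb hab => ?_⟩
  have m : ∀ z ∈ Set.Icc (0 : ℝ) 1, k * z ∈ Set.Icc (0 : ℝ) 1 := fun z hz =>
    ⟨mul_nonneg hk0 hz.1, mul_le_one₀ hk1 hz.1 hz.2⟩
  have := concEnt_convex.2 (m x hx) (m y hy) ha hb hab
  simp only [smul_eq_mul, e] at this ⊢
  rwa [show k * (a * x + b * y) = a * (k * x) + b * (k * y) by ring]

theorem damping_additivity {γ : ℝ} (hγ0 : 0 ≤ γ) (hγ1 : γ ≤ 1) :
    ∃ q ∈ Set.Icc (0 : ℝ) 1, IsMaxOn (capFun γ 0) (Set.Icc 0 1) q ∧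
      (∀ n : ℕ, IsGreatest (holevoValues γ 0 n) (n * (capFun γ 0 q / Real.log 2))) ∧
      (∀ n : ℕ, holevoCap γ 0 n = n * holevoCap γ 0 1) ∧
      holevoCap γ 0 1 = capFun γ 0 q / Real.log 2 ∧
      classicalCapacity γ 0 = holevoCap γ 0 1 :=
  additivity hγ0 hγ1 le_rfl zero_le_one (keyHyp_zero hγ0 hγ1) (gOut_zero_convex hγ0 hγ1)

end Vale.Agent.P358
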