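import Vale.Agent.P358.Entropy

/-!
The generalized amplitude-damping channel, its tensor powers and capacities.
-/

namespace Vale.Agent.P358

open Matrix
open scoped ComplexOrder Matrix

/-- Basis labels of n qubits. -/
abbrev Cfg (n : ℕ) := Fin n → Fin 2

/-- The von Neumann entropy in bits. -/
noncomputable def vnEntropy {ι : Type*} [Fintype ι] [DecidableEq ι] (A : Matrix ι ι ℂ) : ℝ :=
  eSum A / Real.log 2

/-- The binary entropy in bits. -/
noncomputable def h2 (x : ℝ) : ℝ := Real.binEntropy x / Real.log 2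

/-- Kraus operators of the generalized amplitude-damping channel. -/
noncomputable def kraus (γ ν : ℝ) : Fin 4 → Matrix (Fin 2) (Fin 2) ℂ :=
  ![((Real.sqrt (1 - ν) : ℝ) : ℂ) • !![1, 0; 0, ((Real.sqrt (1 - γ) : ℝ) : ℂ)],
    ((Real.sqrt (1 - ν) : ℝ) : ℂ) • !![0, ((Real.sqrt γ : ℝ) : ℂ); 0, 0],
    ((Real.sqrt ν : ℝ) : ℂ) • !![((Real.sqrt (1 - γ) : ℝ) : ℂ), 0; 0, 1],
    ((Real.sqrt ν : ℝ) : ℂ) • !![0, 0; ((Real.sqrt γ : ℝ) : ℂ), 0]]

/-- The tensor product of one operator on each of n qubits. -/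
def tensorMat {n : ℕ} (M : Fin n → Matrix (Fin 2) (Fin 2) ℂ) : Matrix (Cfg n) (Cfg n) ℂ :=
  fun σ τ => ∏ i, M i (σ i) (τ i)

/-- The channel on one qubit. -/
noncomputable def gadc (γ ν : ℝ) (ρ : Matrix (Fin 2) (Fin 2) ℂ) : Matrix (Fin 2) (Fin 2) ℂ :=
  ∑ k, kraus γ ν k * ρ * (kraus γ ν k)ᴴ

/-- The n-fold tensor power of the channel. -/
noncomputable def gadcPow (γ ν : ℝ) (n : ℕ) (ρ : Matrix (Cfg n) (Cfg n) ℂ) :
    Matrix (Cfg n) (Cfg n) ℂ :=
  ∑ f : Fin n → Fin 4, tensorMat (fun i => kraus γ ν (f i)) * ρ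
    * (tensorMat (fun i => kraus γ ν (f i)))ᴴ

/-- The values of the Holevo quantity over finite ensembles of inputs for n uses. -/
def holevoValues (γ ν : ℝ) (n : ℕ) : Set ℝ :=
  {x | ∃ (m : ℕ) (w : Fin m → ℝ) (ρ : Fin m → Matrix (Cfg n) (Cfg n) ℂ),
    (∀ a, 0 ≤ w a) ∧ ∑ a, w a = 1 ∧ (∀ a, (ρ a).PosSemidef ∧ (ρ a).trace = 1) ∧
    x = vnEntropy (∑ a, (w a : ℂ) • gadcPow γ ν n (ρ a))
      - ∑ a, w a * vnEntropy (gadcPow γ ν n (ρ a))}

/-- The Holevo capacity of n uses. -/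
noncomputable def holevoCap (γ ν : ℝ) (n : ℕ) : ℝ := sSup (holevoValues γ ν n)

/-- The classical capacity: sup over n ≥ 1 of the Holevo capacity of n uses divided by n. -/
noncomputable def classicalCapacity (γ ν : ℝ) : ℝ :=
  ⨆ n : ℕ, holevoCap γ ν (n + 1) / ((n : ℝ) + 1)

end Vale.Agent.P358
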