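import Mathlib

/-!
Determinant inequalities: Hua's inequality and convexity of log |det (H + iK)| - log det H.
-/

namespace Vale.Agent.P358

open Matrix
open scoped ComplexOrder Matrix

variable {ι : Type*} [Fintype ι] [DecidableEq ι]

lemma norm_det_pos {P : Matrix ι ι ℂ} (hP : P.PosDef) : 0 < ‖P.det‖ :=
  norm_pos_iff.2 hP.det_pos.ne'

open scoped MatrixOrder in
lemma exists_factor {P : Matrix ι ι ℂ} (hP : P.PosDef) :
    ∃ S : Matrix ι ι ℂ, IsUnit S ∧ P = Sᴴ * S := by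
  obtain ⟨S, hS, hPS⟩ := CStarAlgebra.isStrictlyPositive_iff_eq_star_mul_self.mp
    hP.isStrictlyPositive
  exact ⟨S, hS, hPS⟩

lemma norm_det_one_le {Q : Matrix ι ι ℂ} (hQ : Q.PosSemidef) : 1 ≤ ‖(1 + Q).det‖ := by
  have hA := hQ.isHermitian
  have hU : (hA.eigenvectorUnitary : Matrix ι ι ℂ) * (hA.eigenvectorUnitary : Matrix ι ι ℂ)ᴴ = 1 :=
    Unitary.coe_mul_star_self hA.eigenvectorUnitary
  have e : 1 + Q = (hA.eigenvectorUnitary : Matrix ι ι ℂ)
      * diagonal (fun i => ((1 + hA.eigenvalues i : ℝ) : ℂ))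
      * (hA.eigenvectorUnitary : Matrix ι ι ℂ)ᴴ := by
    have hd : diagonal (fun i => ((1 + hA.eigenvalues i : ℝ) : ℂ))
        = 1 + diagonal (fun i => ((hA.eigenvalues i : ℝ) : ℂ)) := by
      rw [← diagonal_one, diagonal_add]; push_cast; rfl
    rw [hd, Matrix.mul_add, Matrix.mul_one, Matrix.add_mul, hU]
    congr 1
    conv_lhs => rw [hA.spectral_theorem]
    simp [Unitary.conjStarAlgAut_apply, star_eq_conjTranspose, Function.comp_def]
  rw [e, det_mul, det_mul, mul_right_comm, ← det_mul, hU, det_one, one_mul, det_diagonal,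
    norm_prod]
  apply Finset.one_le_prod
  intro i _
  rw [Complex.norm_real, Real.norm_eq_abs]
  have : 0 ≤ hA.eigenvalues i := hQ.eigenvalues_nonneg i
  rw [abs_of_nonneg (by linarith : (0 : ℝ) ≤ 1 + hA.eigenvalues i)]
  linarith

lemma norm_det_le_add {P Q : Matrix ι ι ℂ} (hP : P.PosDef) (hQ : Q.PosSemidef) :
    ‖P.det‖ ≤ ‖(P + Q).det‖ := by
  obtain ⟨S, hS, rfl⟩ := exists_factor hP
  have hSd : IsUnit S.det := (Matrix.isUnit_iff_isUnit_det S).1 hS
  have hQ' : (S⁻¹ᴴ * Q * S⁻¹).PosSemidef := hQ.conjTranspose_mul_mul_same _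
  have e : Sᴴ * S + Q = Sᴴ * (1 + S⁻¹ᴴ * Q * S⁻¹) * S := by
    have h1 : Sᴴ * S⁻¹ᴴ = 1 := by
      rw [← conjTranspose_mul, Matrix.nonsing_inv_mul _ hSd, conjTranspose_one]
    have h2 : S⁻¹ * S = 1 := Matrix.nonsing_inv_mul _ hSd
    simp only [Matrix.mul_add, Matrix.mul_one, Matrix.add_mul]
    congr 1
    rw [Matrix.mul_assoc, Matrix.mul_assoc, h2, Matrix.mul_one, ← Matrix.mul_assoc, h1,
      Matrix.one_mul]
  rw [e, det_mul, det_mul, det_mul, norm_mul, norm_mul, norm_mul]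
  have := norm_det_one_le hQ'
  calc ‖Sᴴ.det‖ * ‖S.det‖ = ‖Sᴴ.det‖ * 1 * ‖S.det‖ := by ring
    _ ≤ _ := by gcongr

/-- Hua's determinant inequality. -/
lemma hua {A B : Matrix ι ι ℂ} (hA : (1 - Aᴴ * A).PosDef) (hB : (1 - Bᴴ * B).PosDef) :
    ‖(1 - Aᴴ * A).det‖ * ‖(1 - Bᴴ * B).det‖ ≤ ‖(1 - Aᴴ * B).det‖ ^ 2 := by
  set M := 1 - Aᴴ * A with hM
  have hMd : IsUnit M.det := (Matrix.isUnit_iff_isUnit_det M).1 hA.isUnit
  set N := M⁻¹ with hN
  have r1 : N * (Aᴴ * A) = N - 1 := by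
    have := Matrix.nonsing_inv_mul M hMd
    rw [← hN, hM, Matrix.mul_sub, Matrix.mul_one, sub_eq_iff_eq_add] at this
    exact eq_sub_of_add_eq (by rw [add_comm]; exact this.symm)
  have r2 : Aᴴ * A * N = N - 1 := by
    have := Matrix.mul_nonsing_inv M hMd
    rw [← hN, hM, Matrix.sub_mul, Matrix.one_mul, sub_eq_iff_eq_add] at this
    exact eq_sub_of_add_eq (by rw [add_comm]; exact this.symm)
  have hNp : N.PosDef := hA.inv
  have key : (1 - Bᴴ * A) * N * (1 - Aᴴ * B)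
      = (1 - Bᴴ * B) + (A - B)ᴴ * (1 + A * N * Aᴴ) * (A - B) := by
    have s1 : Aᴴ * (1 + A * N * Aᴴ) = N * Aᴴ := by
      rw [Matrix.mul_add, Matrix.mul_one, ← Matrix.mul_assoc, ← Matrix.mul_assoc, r2,
        Matrix.sub_mul, Matrix.one_mul]
      abel
    have s2 : (1 + A * N * Aᴴ) * A = A * N := by
      rw [Matrix.add_mul, Matrix.one_mul, Matrix.mul_assoc, Matrix.mul_assoc, r1, Matrix.mul_sub,
        Matrix.mul_one]
      abel
    have s3 : Aᴴ * (1 + A * N * Aᴴ) * A = N - 1 := by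
      rw [s1, Matrix.mul_assoc, r1]
    calc (1 - Bᴴ * A) * N * (1 - Aᴴ * B)
        = N - N * Aᴴ * B - Bᴴ * (A * N) + Bᴴ * (A * N * Aᴴ) * B := by noncomm_ring
      _ = N - Aᴴ * (1 + A * N * Aᴴ) * B - Bᴴ * ((1 + A * N * Aᴴ) * A)
            + Bᴴ * (A * N * Aᴴ) * B := by rw [s1, s2]
      _ = _ := by
          have s4 : N = 1 + Aᴴ * (1 + A * N * Aᴴ) * A := by rw [s3]; abel
          conv_lhs => arg 1; arg 1; arg 1; rw [s4]
          rw [conjTranspose_sub]
          noncomm_ring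
  have hpsd : ((A - B)ᴴ * (1 + A * N * Aᴴ) * (A - B)).PosSemidef :=
    (PosSemidef.one.add (hNp.posSemidef.mul_mul_conjTranspose_same A)).conjTranspose_mul_mul_same _
  have h1 := norm_det_le_add hB hpsd
  have hc : 1 - Bᴴ * A = (1 - Aᴴ * B)ᴴ := by simp
  rw [← key, det_mul, det_mul, norm_mul, norm_mul, hc, det_conjTranspose, norm_star] at h1
  have h2 : ‖M.det‖ * ‖N.det‖ = 1 := by
    rw [← norm_mul, ← det_mul, hN, Matrix.mul_nonsing_inv M hMd, det_one, norm_one]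
  calc ‖M.det‖ * ‖(1 - Bᴴ * B).det‖
      ≤ ‖M.det‖ * (‖(1 - Aᴴ * B).det‖ * ‖N.det‖ * ‖(1 - Aᴴ * B).det‖) :=
        mul_le_mul_of_nonneg_left h1 (norm_nonneg _)
    _ = (‖M.det‖ * ‖N.det‖) * ‖(1 - Aᴴ * B).det‖ ^ 2 := by ring
    _ = _ := by rw [h2, one_mul]

lemma posDef_one_sub_sq {E : Matrix ι ι ℂ} (hE : E.IsHermitian) (hp : (1 + E).PosDef)
    (hm : (1 - E).PosDef) : (1 - E * E).PosDef := by
  have h1 : ((1 + E)ᴴ * (1 - E) * (1 + E)).PosDef :=
    hm.conjTranspose_mul_mul_same (Matrix.mulVec_injective_of_isUnit hp.isUnit)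
  have h2 : ((1 - E)ᴴ * (1 + E) * (1 - E)).PosDef :=
    hp.conjTranspose_mul_mul_same (Matrix.mulVec_injective_of_isUnit hm.isUnit)
  rw [conjTranspose_add, conjTranspose_one, hE.eq] at h1
  rw [conjTranspose_sub, conjTranspose_one, hE.eq] at h2
  have e : (1 : Matrix ι ι ℂ) - E * E
      = ((1 / 2 : ℝ) : ℂ) • ((1 + E) * (1 - E) * (1 + E) + (1 - E) * (1 + E) * (1 - E)) := by
    have e2 : (1 + E) * (1 - E) * (1 + E) + (1 - E) * (1 + E) * (1 - E)
        = (2 : ℂ) • (1 - E * E) := by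
      rw [two_smul]; noncomm_ring
    rw [e2, smul_smul]
    norm_num
  rw [e]
  exact (h1.add h2).smul (Complex.zero_lt_real.2 (by norm_num : (0 : ℝ) < 1 / 2))

/-- log |det (H + iK)| - log det H. -/
noncomputable def rotLog (K H : Matrix ι ι ℂ) : ℝ :=
  Real.log ‖(H + Complex.I • K).det‖ - Real.log ‖H.det‖

lemma norm_det_ne_zero_of_posDef_add {H K : Matrix ι ι ℂ} (hH : H.PosDef) (hK : K.IsHermitian) :
    (H + Complex.I • K).det ≠ 0 := by
  intro h0
  obtain ⟨v, hv, hv0⟩ := Matrix.exists_mulVec_eq_zero_iff.2 h0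
  have h1 := congrArg (fun w => (star v ⬝ᵥ w).re) hv0
  simp only [Matrix.add_mulVec, Matrix.smul_mulVec, dotProduct_add, dotProduct_smul,
    dotProduct_zero, Complex.zero_re, Complex.add_re] at h1
  have h2 : (star v ⬝ᵥ K *ᵥ v).im = 0 := hK.im_star_dotProduct_mulVec_self v
  have h3 : 0 < (star v ⬝ᵥ H *ᵥ v).re := hH.re_dotProduct_pos hv
  rw [smul_eq_mul, Complex.mul_re, Complex.I_re, Complex.I_im, h2] at h1
  linarith

/-- The convexity lemma (midpoint form). -/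
lemma rotLog_midpoint {K H₁ H₂ : Matrix ι ι ℂ} (hK : K.IsHermitian) (h₁ : H₁.PosDef)
    (h₂ : H₂.PosDef) :
    2 * rotLog K ((1 / 2 : ℂ) • (H₁ + H₂)) ≤ rotLog K H₁ + rotLog K H₂ := by
  set H₀ := (1 / 2 : ℂ) • (H₁ + H₂) with hH₀
  have hhalf : (0 : ℂ) < (1 / 2 : ℂ) := by
    rw [show (1 / 2 : ℂ) = ((1 / 2 : ℝ) : ℂ) by simp]
    exact Complex.zero_lt_real.2 (by norm_num)
  have h₀ : H₀.PosDef := (h₁.add h₂).smul hhalf
  obtain ⟨S, hS, hS0⟩ := exists_factor h₀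
  have hSd : IsUnit S.det := (Matrix.isUnit_iff_isUnit_det S).1 hS
  have hSn : 0 < ‖S.det‖ := norm_pos_iff.2 hSd.ne_zero
  set T := S⁻¹ with hT
  have hTS : T * S = 1 := Matrix.nonsing_inv_mul _ hSd
  have hST : Sᴴ * Tᴴ = 1 := by rw [← conjTranspose_mul, hTS, conjTranspose_one]
  have hTinj : Function.Injective T.mulVec :=
    Matrix.mulVec_injective_of_isUnit ((Matrix.isUnit_nonsing_inv_iff).2 hS)
  have hcongr : ∀ X : Matrix ι ι ℂ, X = Sᴴ * (Tᴴ * X * T) * S := by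
    intro X
    rw [Matrix.mul_assoc, Matrix.mul_assoc, hTS, Matrix.mul_one, ← Matrix.mul_assoc, hST,
      Matrix.one_mul]
  set K' := Tᴴ * K * T with hK'
  set E := Tᴴ * ((1 / 2 : ℂ) • (H₁ - H₂)) * T with hE
  have hone : Tᴴ * H₀ * T = 1 := by
    rw [hS0]
    rw [show Tᴴ * (Sᴴ * S) * T = (Tᴴ * Sᴴ) * (S * T) by
      simp only [Matrix.mul_assoc]]
    rw [← conjTranspose_mul, Matrix.mul_nonsing_inv _ hSd,
      conjTranspose_one, Matrix.mul_one]
  have hp : Tᴴ * H₁ * T = 1 + E := by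
    rw [← hone, hE, ← Matrix.add_mul, ← Matrix.mul_add, hH₀]
    congr 2
    module
  have hm : Tᴴ * H₂ * T = 1 - E := by
    rw [← hone, hE, ← Matrix.sub_mul, ← Matrix.mul_sub, hH₀]
    congr 2
    module
  have hK'h : K'.IsHermitian := isHermitian_conjTranspose_mul_mul _ hK
  have hEh : E.IsHermitian := by
    refine isHermitian_conjTranspose_mul_mul _ ?_
    unfold Matrix.IsHermitian
    rw [conjTranspose_smul, conjTranspose_sub, h₁.isHermitian.eq, h₂.isHermitian.eq]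
    simp
  have hpd : (1 + E).PosDef := hp ▸ h₁.conjTranspose_mul_mul_same hTinj
  have hmd : (1 - E).PosDef := hm ▸ h₂.conjTranspose_mul_mul_same hTinj
  set Q := (1 : Matrix ι ι ℂ) + Complex.I • K' with hQ
  have hQd : Q.det ≠ 0 := norm_det_ne_zero_of_posDef_add PosDef.one hK'h
  have hQu : IsUnit Q.det := isUnit_iff_ne_zero.2 hQd
  set R := Q⁻¹ with hR
  have hQR : Q * R = 1 := Matrix.mul_nonsing_inv _ hQu
  have hQQ : Qᴴ * Q = 1 + K'ᴴ * K' := by
    simp only [hQ, conjTranspose_add, conjTranspose_one, conjTranspose_smul, Complex.star_def,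
      Complex.conj_I, Matrix.add_mul, Matrix.mul_add, Matrix.one_mul, Matrix.mul_one,
      smul_mul_assoc, mul_smul_comm, smul_smul, hK'h.eq, neg_mul, Complex.I_mul_I, neg_neg,
      one_smul, neg_smul, smul_add, smul_neg]
    abel_nf
  have hRR : 1 - Rᴴ * R = (K' * R)ᴴ * (K' * R) := by
    have : (Q * R)ᴴ * (Q * R) = 1 := by rw [hQR]; simp
    rw [conjTranspose_mul, Matrix.mul_assoc, ← Matrix.mul_assoc Qᴴ, hQQ, Matrix.add_mul,
      Matrix.one_mul, Matrix.mul_add] at this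
    rw [conjTranspose_mul]
    simp only [Matrix.mul_assoc] at this ⊢
    exact sub_eq_of_eq_add' this.symm
  set Z := R * E with hZ
  have hsq := posDef_one_sub_sq hEh hpd hmd
  have hext : 1 - Zᴴ * Z = (1 - E * E) + (K' * R * E)ᴴ * (K' * R * E) := by
    have : (K' * R * E)ᴴ * (K' * R * E) = Eᴴ * ((K' * R)ᴴ * (K' * R)) * E := by
      simp only [conjTranspose_mul, Matrix.mul_assoc]
    rw [this, ← hRR, hZ, conjTranspose_mul, hEh.eq]
    noncomm_ring
  have hZp : (1 - Zᴴ * Z).PosDef := by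
    rw [hext]; exact hsq.add_posSemidef (posSemidef_conjTranspose_mul_self _)
  have hZge : ‖(1 - E * E).det‖ ≤ ‖(1 - Zᴴ * Z).det‖ := by
    rw [hext]; exact norm_det_le_add hsq (posSemidef_conjTranspose_mul_self _)
  have hflip : (1 - Z * Zᴴ).det = (1 - Zᴴ * Z).det := by
    rw [sub_eq_add_neg, ← Matrix.neg_mul, det_one_add_mul_comm, Matrix.mul_neg, ← sub_eq_add_neg]
  have hZp' : (1 - Z * Zᴴ).PosDef := by
    have hps : (1 - Z * Zᴴ).PosSemidef := by
      have h1 := (hZp.inv).posSemidef.mul_mul_conjTranspose_same Z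
      have hu : IsUnit (1 - Zᴴ * Z).det := (Matrix.isUnit_iff_isUnit_det _).1 hZp.isUnit
      have hi : (1 + Z * (1 - Zᴴ * Z)⁻¹ * Zᴴ).PosDef := PosDef.one.add_posSemidef h1
      have e : (1 - Z * Zᴴ) * (1 + Z * (1 - Zᴴ * Z)⁻¹ * Zᴴ) = 1 := by
        have h2 : (1 - Z * Zᴴ) * Z = Z * (1 - Zᴴ * Z) := by noncomm_ring
        rw [Matrix.mul_add, Matrix.mul_one, ← Matrix.mul_assoc, ← Matrix.mul_assoc, h2,
          Matrix.mul_assoc Z, Matrix.mul_nonsing_inv _ hu, Matrix.mul_one]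
        abel
      rw [← Matrix.inv_eq_left_inv e]
      exact hi.inv.posSemidef
    refine hps.posDef_iff_isUnit.2 ((Matrix.isUnit_iff_isUnit_det _).2 ?_)
    rw [hflip]
    exact (Matrix.isUnit_iff_isUnit_det _).1 hZp.isUnit
  have hhua : ‖(1 - E * E).det‖ ≤ ‖(1 - Z * Z).det‖ := by
    have hA : (1 - Zᴴᴴ * Zᴴ).PosDef := by rw [conjTranspose_conjTranspose]; exact hZp'
    have h := hua hA hZp
    rw [conjTranspose_conjTranspose, hflip, ← pow_two] at h
    exact hZge.trans ((pow_le_pow_iff_left₀ (norm_nonneg _) (norm_nonneg _) two_ne_zero).1 h)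
  -- assemble
  have fplus : H₁ + Complex.I • K = Sᴴ * (Q * (1 + Z)) * S := by
    rw [hZ, Matrix.mul_add, Matrix.mul_one, ← Matrix.mul_assoc Q, hQR, Matrix.one_mul, hQ,
      add_right_comm, ← hp, hK', Matrix.mul_add, Matrix.add_mul, Matrix.mul_smul, Matrix.smul_mul,
      ← hcongr, ← hcongr]
  have fminus : H₂ + Complex.I • K = Sᴴ * (Q * (1 - Z)) * S := by
    rw [hZ, Matrix.mul_sub, Matrix.mul_one, ← Matrix.mul_assoc Q, hQR, Matrix.one_mul, hQ,
      add_sub_right_comm, ← hm, hK', Matrix.mul_add, Matrix.add_mul, Matrix.mul_smul,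
      Matrix.smul_mul, ← hcongr, ← hcongr]
  have fmid : H₀ + Complex.I • K = Sᴴ * Q * S := by
    rw [hQ, Matrix.mul_add, Matrix.add_mul, Matrix.mul_one, ← hS0, hK', Matrix.mul_smul,
      Matrix.smul_mul, ← hcongr]
  have gplus : H₁ = Sᴴ * (1 + E) * S := by rw [← hp, ← hcongr]
  have gminus : H₂ = Sᴴ * (1 - E) * S := by rw [← hm, ← hcongr]
  have hee : (1 + E) * (1 - E) = 1 - E * E := by noncomm_ring
  have hzz : (1 + Z) * (1 - Z) = 1 - Z * Z := by noncomm_ring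
  have hQn : 0 < ‖Q.det‖ := norm_pos_iff.2 hQd
  have hep := norm_det_pos hpd
  have hem := norm_det_pos hmd
  have hsqn := norm_det_pos hsq
  have hzn : 0 < ‖(1 - Z * Z).det‖ := lt_of_lt_of_le hsqn hhua
  rw [← hzz, det_mul, norm_mul] at hzn hhua
  rw [← hee, det_mul, norm_mul] at hhua
  have hzp : 0 < ‖(1 + Z).det‖ := pos_of_mul_pos_left hzn (norm_nonneg _)
  have hzm : 0 < ‖(1 - Z).det‖ := pos_of_mul_pos_right hzn (norm_nonneg _)
  have hlog := Real.log_le_log (mul_pos hep hem) hhua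
  rw [Real.log_mul hep.ne' hem.ne', Real.log_mul hzp.ne' hzm.ne'] at hlog
  unfold rotLog
  rw [fplus, fminus, fmid]
  conv_rhs => rw [gplus, gminus]
  rw [hS0]
  simp only [det_mul, norm_mul, det_conjTranspose, norm_star]
  have hl : ∀ x : ℝ, 0 < x →
      Real.log (‖S.det‖ * x * ‖S.det‖) = 2 * Real.log ‖S.det‖ + Real.log x := fun x hx => by
    rw [Real.log_mul (mul_pos hSn hx).ne' hSn.ne', Real.log_mul hSn.ne' hx.ne']; ring
  rw [hl _ hQn, hl _ (mul_pos hQn hzp), hl _ (mul_pos hQn hzm), hl _ hep, hl _ hem,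
    Real.log_mul hQn.ne' hzp.ne', Real.log_mul hQn.ne' hzm.ne', Real.log_mul hSn.ne' hSn.ne']
  linarith

end Vale.Agent.P358
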