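import Mathlib

/-!
Entropy sums of Hermitian matrices and their resolvent (log-det) representation.
-/

namespace Vale.Agent.P358

open Matrix Real Filter Topology
open scoped ComplexOrder Matrix

variable {ι κ : Type*} [Fintype ι] [DecidableEq ι] [Fintype κ] [DecidableEq κ]

open Classical in
/-- The sum of -x log x over the eigenvalues of a Hermitian matrix (0 otherwise). -/
noncomputable def eSum (A : Matrix ι ι ℂ) : ℝ :=
  if hA : A.IsHermitian then ∑ i, Real.negMulLog (hA.eigenvalues i) else 0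

lemma eSum_def {A : Matrix ι ι ℂ} (hA : A.IsHermitian) :
    eSum A = ∑ i, Real.negMulLog (hA.eigenvalues i) := by simp [eSum, hA]

lemma spectral_form {A : Matrix ι ι ℂ} (hA : A.IsHermitian) :
    A = (hA.eigenvectorUnitary : Matrix ι ι ℂ) * diagonal (fun i => ((hA.eigenvalues i : ℝ) : ℂ))
      * (hA.eigenvectorUnitary : Matrix ι ι ℂ)ᴴ := by
  conv_lhs => rw [hA.spectral_theorem]
  simp [Unitary.conjStarAlgAut_apply, star_eq_conjTranspose, Function.comp_def]

lemma charpoly_conj {U : Matrix ι ι ℂ} (hU : U * Uᴴ = 1) (M : Matrix ι ι ℂ) :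
    (U * M * Uᴴ).charpoly = M.charpoly := by
  have h := Matrix.charpoly_units_conj (⟨U, Uᴴ, hU, mul_eq_one_comm.1 hU⟩ : (Matrix ι ι ℂ)ˣ) M
  rwa [show ((⟨U, Uᴴ, hU, mul_eq_one_comm.1 hU⟩ : (Matrix ι ι ℂ)ˣ)).val⁻¹ = Uᴴ from
    Matrix.inv_eq_right_inv hU] at h

lemma sum_eig_of_charpoly {A : Matrix ι ι ℂ} (hA : A.IsHermitian) {d : κ → ℝ}
    (h : A.charpoly = (diagonal fun j => ((d j : ℝ) : ℂ)).charpoly) (F : ℝ → ℝ) :
    ∑ i, F (hA.eigenvalues i) = ∑ j, F (d j) := by
  have h1 := hA.roots_charpoly_eq_eigenvalues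
  rw [h, Matrix.charpoly_diagonal, Polynomial.roots_prod] at h1
  · simp only [Polynomial.roots_X_sub_C, Multiset.bind_singleton] at h1
    have h2 := congrArg (fun m : Multiset ℂ => ((m.map Complex.re).map F).sum) h1
    simpa [Multiset.map_map, Function.comp_def] using h2.symm
  · exact Finset.prod_ne_zero_iff.2 fun j _ => Polynomial.X_sub_C_ne_zero _

lemma isHermitian_conj_diag (U : Matrix ι ι ℂ) (d : ι → ℝ) :
    (U * diagonal (fun j => ((d j : ℝ) : ℂ)) * Uᴴ).IsHermitian :=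
  isHermitian_mul_mul_conjTranspose _ (Matrix.isHermitian_diagonal_of_self_adjoint _ (by
    ext i; simp))

lemma eSum_conj_diag {U : Matrix ι ι ℂ} (hU : U * Uᴴ = 1) (d : ι → ℝ) :
    eSum (U * diagonal (fun j => ((d j : ℝ) : ℂ)) * Uᴴ) = ∑ j, Real.negMulLog (d j) := by
  rw [eSum_def (isHermitian_conj_diag U d)]
  exact sum_eig_of_charpoly _ (charpoly_conj hU _) _

lemma eSum_diagonal (d : ι → ℝ) :
    eSum (diagonal fun j => ((d j : ℝ) : ℂ)) = ∑ j, Real.negMulLog (d j) := by
  simpa using eSum_conj_diag (U := (1 : Matrix ι ι ℂ)) (by simp) d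

lemma eSum_zero : eSum (0 : Matrix ι ι ℂ) = 0 := by
  have := eSum_diagonal (fun _ : ι => (0 : ℝ))
  simpa using this

lemma eSum_reindex (e : ι ≃ κ) {A : Matrix ι ι ℂ} (hA : A.IsHermitian) :
    eSum (A.submatrix e.symm e.symm) = eSum A := by
  have hB : (A.submatrix e.symm e.symm).IsHermitian := hA.submatrix _
  rw [eSum_def hB, eSum_def hA]
  refine sum_eig_of_charpoly hB ?_ _
  rw [show A.submatrix e.symm e.symm = Matrix.reindex e e A from rfl, Matrix.charpoly_reindex]
  conv_lhs => rw [spectral_form hA]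
  exact charpoly_conj (Unitary.coe_mul_star_self hA.eigenvectorUnitary) _

lemma eSum_unitary {U : Matrix ι ι ℂ} (hU : U * Uᴴ = 1) {A : Matrix ι ι ℂ} (hA : A.IsHermitian) :
    eSum (U * A * Uᴴ) = eSum A := by
  set V : Matrix ι ι ℂ := (hA.eigenvectorUnitary : Matrix ι ι ℂ)
  have hV : V * Vᴴ = 1 := Unitary.coe_mul_star_self hA.eigenvectorUnitary
  have hUV : U * V * (U * V)ᴴ = 1 := by
    rw [conjTranspose_mul, Matrix.mul_assoc, ← Matrix.mul_assoc V, hV, Matrix.one_mul, hU]
  rw [eSum_def hA, ← eSum_conj_diag hUV]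
  congr 1
  conv_lhs => rw [spectral_form hA]
  simp only [V, conjTranspose_mul, Matrix.mul_assoc]

lemma eSum_fromBlocks {A : Matrix ι ι ℂ} {B : Matrix κ κ ℂ} (hA : A.IsHermitian)
    (hB : B.IsHermitian) : eSum (fromBlocks A 0 0 B) = eSum A + eSum B := by
  have hAB : (fromBlocks A 0 0 B).IsHermitian :=
    Matrix.IsHermitian.fromBlocks hA (by simp) hB
  rw [eSum_def hAB, eSum_def hA, eSum_def hB]
  have := sum_eig_of_charpoly (κ := ι ⊕ κ) hAB (d := Sum.elim hA.eigenvalues hB.eigenvalues) ?_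
    Real.negMulLog
  · simpa [Fintype.sum_sum_type] using this
  have e : (diagonal fun j => (((Sum.elim hA.eigenvalues hB.eigenvalues) j : ℝ) : ℂ))
      = fromBlocks (diagonal fun i => ((hA.eigenvalues i : ℝ) : ℂ)) 0 0
          (diagonal fun i => ((hB.eigenvalues i : ℝ) : ℂ)) := by
    rw [fromBlocks_diagonal]
    congr 1
    funext j; cases j <;> rfl
  rw [e, Matrix.charpoly_fromBlocks_zero₁₂, Matrix.charpoly_fromBlocks_zero₁₂]
  congr 1
  · conv_lhs => rw [spectral_form hA]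
    exact charpoly_conj (Unitary.coe_mul_star_self hA.eigenvectorUnitary) _
  · conv_lhs => rw [spectral_form hB]
    exact charpoly_conj (Unitary.coe_mul_star_self hB.eigenvectorUnitary) _

lemma eSum_real_smul {A : Matrix ι ι ℂ} (hA : A.IsHermitian) (c : ℝ) :
    eSum ((c : ℂ) • A) = c * eSum A + Real.negMulLog c * A.trace.re := by
  have htr : A.trace.re = ∑ i, hA.eigenvalues i := by
    rw [hA.trace_eq_sum_eigenvalues]; simp
  have e : (c : ℂ) • A = (hA.eigenvectorUnitary : Matrix ι ι ℂ)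
      * diagonal (fun i => (((c * hA.eigenvalues i) : ℝ) : ℂ))
      * (hA.eigenvectorUnitary : Matrix ι ι ℂ)ᴴ := by
    have hd : diagonal (fun i => (((c * hA.eigenvalues i) : ℝ) : ℂ))
        = (c : ℂ) • diagonal (fun i => ((hA.eigenvalues i : ℝ) : ℂ)) := by
      rw [← diagonal_smul]; push_cast; rfl
    rw [hd, Matrix.mul_smul, Matrix.smul_mul]
    conv_lhs => rw [spectral_form hA]
  rw [e, eSum_conj_diag (Unitary.coe_mul_star_self hA.eigenvectorUnitary), eSum_def hA, htr,
    Finset.mul_sum, Finset.mul_sum, ← Finset.sum_add_distrib]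
  refine Finset.sum_congr rfl fun i _ => ?_
  rw [Real.negMulLog_mul]
  ring

/-- y log y. -/
noncomputable def yLogY (y : ℝ) : ℝ := y * Real.log y

/-- The integral of log (s + x) over 1/Λ ≤ s ≤ Λ. -/
noncomputable def logInt (Λ x : ℝ) : ℝ := ∫ s in (1 / Λ)..Λ, Real.log (s + x)

/-- Sum of log (s + eigenvalue). -/
noncomputable def ldet (A : Matrix ι ι ℂ) (s : ℝ) : ℝ :=
  Real.log ‖((s : ℂ) • (1 : Matrix ι ι ℂ) + A).det‖

lemma ldet_eq {A : Matrix ι ι ℂ} (hA : A.PosSemidef) {s : ℝ} (hs : 0 < s) :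
    ldet A s = ∑ i, Real.log (s + hA.isHermitian.eigenvalues i) := by
  set U : Matrix ι ι ℂ := (hA.isHermitian.eigenvectorUnitary : Matrix ι ι ℂ)
  have hU : U * Uᴴ = 1 := Unitary.coe_mul_star_self hA.isHermitian.eigenvectorUnitary
  have e : (s : ℂ) • (1 : Matrix ι ι ℂ) + A
      = U * diagonal (fun i => ((s + hA.isHermitian.eigenvalues i : ℝ) : ℂ)) * Uᴴ := by
    have hd : diagonal (fun i => ((s + hA.isHermitian.eigenvalues i : ℝ) : ℂ))
        = (s : ℂ) • 1 + diagonal (fun i => ((hA.isHermitian.eigenvalues i : ℝ) : ℂ)) := by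
      rw [smul_one_eq_diagonal, diagonal_add]; push_cast; rfl
    rw [hd, Matrix.mul_add, Matrix.add_mul, Matrix.mul_smul, Matrix.mul_one, Matrix.smul_mul, hU]
    conv_lhs => rw [spectral_form hA.isHermitian]
  have hp : ∀ i, 0 < s + hA.isHermitian.eigenvalues i := fun i => by
    have := hA.eigenvalues_nonneg i; linarith
  rw [ldet, e, det_mul, det_mul, mul_right_comm, ← det_mul, hU, det_one, one_mul, det_diagonal,
    norm_prod, Real.log_prod]
  · refine Finset.sum_congr rfl fun i _ => ?_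
    rw [Complex.norm_real, Real.norm_eq_abs, abs_of_pos (hp i)]
  · intro i _
    rw [Complex.norm_real, Real.norm_eq_abs]
    exact (abs_pos.2 (hp i).ne').ne'

lemma continuousOn_log_add {Λ x : ℝ} (hΛ : 1 ≤ Λ) (hx : 0 ≤ x) :
    ContinuousOn (fun s => Real.log (s + x)) (Set.uIcc (1 / Λ) Λ) := by
  have h0 : 0 < 1 / Λ := by positivity
  have h1 : 1 / Λ ≤ Λ := le_trans ((div_le_one (by linarith)).2 hΛ) hΛ
  refine ContinuousOn.log (by fun_prop) fun s hs => ?_
  rw [Set.uIcc_of_le h1] at hs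
  linarith [hs.1]

lemma logInt_eq {Λ x : ℝ} (hΛ : 1 ≤ Λ) (hx : 0 ≤ x) :
    logInt Λ x = yLogY (Λ + x) - yLogY (1 / Λ + x) - (Λ - 1 / Λ) := by
  have h0 : 0 < 1 / Λ := by positivity
  have h1 : 1 / Λ ≤ Λ := le_trans ((div_le_one (by linarith)).2 hΛ) hΛ
  rw [logInt, intervalIntegral.integral_eq_sub_of_hasDerivAt
    (f := fun s => yLogY (s + x) - s) ?_ (continuousOn_log_add hΛ hx).intervalIntegrable]
  · ring
  intro s hs
  rw [Set.uIcc_of_le h1] at hs
  have hsx : s + x ≠ 0 := by linarith [hs.1]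
  have h2 : HasDerivAt (fun s => s + x) 1 s := (hasDerivAt_id s).add_const x
  have h3 : HasDerivAt (fun s => yLogY (s + x) - s) _ s :=
    ((h2.mul (h2.log hsx)).sub (hasDerivAt_id s))
  refine h3.congr_deriv ?_
  rw [mul_one_div, div_self hsx]
  ring

lemma logInt_limit {x : ℝ} (hx : 0 ≤ x) :
    Tendsto (fun Λ => logInt Λ x - logInt Λ 0 - x * (Real.log Λ + 1)) atTop
      (𝓝 (Real.negMulLog x)) := by
  have hc : Continuous yLogY := Real.continuous_mul_log
  have hinv : Tendsto (fun Λ : ℝ => 1 / Λ) atTop (𝓝 0) := by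
    simpa using tendsto_inv_atTop_zero
  have t1 : Tendsto (fun Λ : ℝ => Λ * Real.log (1 + x / Λ)) atTop (𝓝 x) :=
    Real.tendsto_mul_log_one_add_div_atTop x
  have t2 : Tendsto (fun Λ : ℝ => x * Real.log (1 + x / Λ)) atTop (𝓝 0) := by
    have h1 : Tendsto (fun Λ : ℝ => 1 + x / Λ) atTop (𝓝 1) := by
      simpa using (tendsto_const_nhds (x := (1:ℝ))).add (tendsto_id.const_div_atTop x)
    simpa using (h1.log one_ne_zero).const_mul x
  have t3 : Tendsto (fun Λ : ℝ => yLogY (1 / Λ + x) - yLogY (1 / Λ)) atTop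
      (𝓝 (yLogY x - yLogY 0)) := by
    have := ((hc.tendsto (0 + x)).comp (hinv.add_const x)).sub ((hc.tendsto 0).comp hinv)
    rwa [zero_add] at this
  have t := ((t1.add t2).sub t3).sub_const x
  have e : x + 0 - (yLogY x - yLogY 0) - x = Real.negMulLog x := by
    simp [yLogY, Real.negMulLog]
  rw [e] at t
  refine t.congr' ?_
  filter_upwards [eventually_ge_atTop (1 : ℝ)] with Λ hΛ
  rw [logInt_eq hΛ hx, logInt_eq hΛ le_rfl, add_zero, add_zero]
  have hΛ0 : 0 < Λ := by linarith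
  have hl : Real.log (1 + x / Λ) = Real.log (Λ + x) - Real.log Λ := by
    rw [← Real.log_div (by linarith) hΛ0.ne']; congr 1; field_simp
  simp only [yLogY, hl]
  ring

/-- The entropy of a positive matrix as a limit of log-det integrals. -/
lemma eSum_limit {A : Matrix ι ι ℂ} (hA : A.PosSemidef) :
    Tendsto (fun Λ => (∫ s in (1 / Λ)..Λ, ldet A s) - (Fintype.card ι : ℝ) * logInt Λ 0
      - A.trace.re * (Real.log Λ + 1)) atTop (𝓝 (eSum A)) := by
  rw [eSum_def hA.isHermitian]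
  have t := tendsto_finsetSum Finset.univ fun i (_ : i ∈ Finset.univ) =>
    logInt_limit (hA.eigenvalues_nonneg i)
  refine t.congr' ?_
  filter_upwards [eventually_ge_atTop (1 : ℝ)] with Λ hΛ
  have h1 : 1 / Λ ≤ Λ := le_trans ((div_le_one (by linarith)).2 hΛ) hΛ
  have e : (∫ s in (1 / Λ)..Λ, ldet A s)
      = ∑ i, logInt Λ (hA.isHermitian.eigenvalues i) := by
    rw [intervalIntegral.integral_congr (g := fun s => ∑ i,
      Real.log (s + hA.isHermitian.eigenvalues i)), intervalIntegral.integral_finsetSum]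
    · rfl
    · exact fun i _ => (continuousOn_log_add hΛ (hA.eigenvalues_nonneg i)).intervalIntegrable
    · intro s hs
      rw [Set.uIcc_of_le h1] at hs
      have h0 : 0 < 1 / Λ := by positivity
      exact ldet_eq hA (lt_of_lt_of_le h0 hs.1)
  have htr : A.trace.re = ∑ i, hA.isHermitian.eigenvalues i := by
    rw [hA.isHermitian.trace_eq_sum_eigenvalues]; simp
  rw [e, htr, Finset.sum_mul]
  simp [Finset.sum_sub_distrib]

lemma intervalIntegrable_ldet {A : Matrix ι ι ℂ} (hA : A.PosSemidef) {Λ : ℝ} (hΛ : 1 ≤ Λ) :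
    IntervalIntegrable (ldet A) MeasureTheory.volume (1 / Λ) Λ := by
  have h1 : 1 / Λ ≤ Λ := le_trans ((div_le_one (by linarith)).2 hΛ) hΛ
  refine ContinuousOn.intervalIntegrable ?_
  refine (continuousOn_finsetSum Finset.univ fun i _ =>
    continuousOn_log_add hΛ (hA.eigenvalues_nonneg i)).congr ?_
  intro s hs
  rw [Set.uIcc_of_le h1] at hs
  have h0 : 0 < 1 / Λ := by positivity
  exact ldet_eq hA (lt_of_lt_of_le h0 hs.1)

end Vale.Agent.P358
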