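import Vale.Agent.P358.Split
import Vale.Agent.P358.Damping

/-!
The one-site inequality for all parameters.
-/

namespace Vale.Agent.P358

open Matrix Real
open scoped ComplexOrder Matrix

lemma pair_entropy {u v w T r od g : ℝ} (hsum : u + v + w = r * T)
    (hprod : v * w = r ^ 2 * T ^ 2 * od) (hr : 0 ≤ r) (hT : 0 ≤ T)
    (hg : g = binEntropy ((1 + Real.sqrt (1 - 4 * od)) / 2)) :
    negMulLog (muP u v w) + negMulLog (muM u v w) = r * T * g + negMulLog (r * T) := by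
  set s := Real.sqrt (1 - 4 * od) with hs
  have h : Real.sqrt ((u + v + w) ^ 2 - 4 * (v * w)) = r * T * s := by
    rw [hsum, hprod, show (r * T) ^ 2 - 4 * (r ^ 2 * T ^ 2 * od) = (r * T) ^ 2 * (1 - 4 * od) by
      ring, Real.sqrt_mul (sq_nonneg _), Real.sqrt_sq (mul_nonneg hr hT)]
  have hP : muP u v w = r * T * ((1 + s) / 2) := by rw [muP, h, hsum]; ring
  have hM : muM u v w = r * T * (1 - (1 + s) / 2) := by rw [muM, h, hsum]; ring
  rw [hP, hM, negMulLog_mul (r * T) ((1 + s) / 2), negMulLog_mul (r * T) (1 - (1 + s) / 2), hg,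
    binEntropy_eq_negMulLog_add_negMulLog_one_sub]
  ring

lemma outDet_symm (γ ν q : ℝ) : outDet γ (1 - ν) (1 - q) = outDet γ ν q := by
  simp only [outDet, tOut]; ring

lemma keyHyp_mirror {γ ν : ℝ} (h : KeyHyp γ ν) : KeyHyp γ (1 - ν) := by
  intro n A C B hρ
  have hs : (fromBlocks B Cᴴ Cᴴᴴ A).PosSemidef := by
    rw [conjTranspose_conjTranspose]; exact sum_swap_psd hρ
  have h1 := h n B Cᴴ A hs
  set M := fromBlocks (((1 - γ * ν : ℝ) : ℂ) • B + ((γ * (1 - ν) : ℝ) : ℂ) • A)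
      (((Real.sqrt (1 - γ) : ℝ) : ℂ) • Cᴴ) (((Real.sqrt (1 - γ) : ℝ) : ℂ) • Cᴴᴴ)
      (((γ * ν : ℝ) : ℂ) • B + ((1 - γ * (1 - ν) : ℝ) : ℂ) • A) with hM
  have hA : A.IsHermitian := (hρ.submatrix Sum.inl).isHermitian
  have hB : B.IsHermitian := (hρ.submatrix Sum.inr).isHermitian
  have sm : ∀ (r : ℝ) {X : Matrix (Cfg n) (Cfg n) ℂ}, X.IsHermitian →
      (((r : ℝ) : ℂ) • X).IsHermitian := fun r X hX => by
    unfold Matrix.IsHermitian
    rw [conjTranspose_smul, hX.eq, Complex.star_def, Complex.conj_ofReal]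
  have hMh : M.IsHermitian := Matrix.IsHermitian.fromBlocks ((sm _ hB).add (sm _ hA))
    (by rw [conjTranspose_smul, Complex.star_def, Complex.conj_ofReal]) ((sm _ hB).add (sm _ hA))
  have e : M.submatrix (Equiv.sumComm (Cfg n) (Cfg n)).symm (Equiv.sumComm (Cfg n) (Cfg n)).symm
      = fromBlocks (((1 - γ * (1 - ν) : ℝ) : ℂ) • A + ((γ * (1 - (1 - ν)) : ℝ) : ℂ) • B)
      (((Real.sqrt (1 - γ) : ℝ) : ℂ) • C) (((Real.sqrt (1 - γ) : ℝ) : ℂ) • Cᴴ)
      (((γ * (1 - ν) : ℝ) : ℂ) • A + ((1 - γ * (1 - (1 - ν)) : ℝ) : ℂ) • B) := by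
    rw [hM, Equiv.sumComm_symm, Equiv.sumComm_apply, fromBlocks_submatrix_sum_swap_sum_swap,
      conjTranspose_conjTranspose]
    simp only [sub_sub_cancel, add_comm]
  rw [← e, eSum_reindex _ hMh]
  refine le_trans (le_of_eq ?_) h1
  set p := A.trace.re
  set q := B.trace.re
  rcases eq_or_ne (p + q) 0 with hT | hT
  · rw [add_comm q p, hT]; ring
  have e2 : gOut γ ν (p / (q + p)) = gOut γ (1 - ν) (q / (p + q)) := by
    rw [gOut, gOut, ← outDet_symm γ ν]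
    congr 7
    rw [add_comm q p]; field_simp; ring
  rw [e2, add_comm q p]
  ring

lemma keyHyp_zero_gamma (ν : ℝ) : KeyHyp 0 ν := by
  have h := keyHyp_zero (γ := 0) le_rfl zero_le_one
  intro n A C B hρ
  have h1 := h n A C B hρ
  simpa [gOut, outDet, tOut] using h1

lemma trace_blocks {κ : Type*} [Fintype κ] (A B C D : Matrix κ κ ℂ) :
    (fromBlocks A B C D).trace = A.trace + D.trace := by
  simp [Matrix.trace, Fintype.sum_sum_type]

/-- The splitting into two filtered damping components with proportional reference outputs. -/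
lemma split_scalars {a b c d m p q : ℝ} (hb : 0 < b) (hc : 0 < c) (ha : 0 < a) (hd : 0 < d)
    (hm : 0 ≤ m) (hac : a + c = 1) (hbd : b + d = 1) (hdet : a * d - b * c = m)
    (hp : 0 ≤ p) (hq : 0 ≤ q) (hT : 0 < p + q) :
    ∃ xa ya xb yb r1 r2 : ℝ, 0 ≤ xa ∧ 0 ≤ ya ∧ 0 ≤ xb ∧ 0 ≤ yb ∧ 0 ≤ r1 ∧ 0 ≤ r2 ∧
      xa ^ 2 + xb ^ 2 = a ∧ ya ^ 2 + yb ^ 2 = d ∧ xa * ya + xb * yb = Real.sqrt m ∧
      r1 + r2 = 1 ∧
      xa ^ 2 * p + b * q + ya ^ 2 * q = r1 * (p + q) ∧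
      yb ^ 2 * q + c * p + xb ^ 2 * p = r2 * (p + q) ∧
      b * q * (ya ^ 2 * q) = r1 ^ 2 * ((a * p + b * q) * (c * p + d * q) - m * (p * q)) ∧
      c * p * (xb ^ 2 * p) = r2 ^ 2 * ((a * p + b * q) * (c * p + d * q) - m * (p * q)) := by
  obtain ⟨D, hD⟩ : ∃ D, D = a * c * p ^ 2 + b * d * q ^ 2 + 2 * (b * c) * (p * q) := ⟨_, rfl⟩
  have hD' : (a * p + b * q) * (c * p + d * q) - m * (p * q) = D := by
    rw [hD, ← hdet]; ring
  rw [hD']
  have hDp : 0 < D := by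
    rw [hD]
    rcases eq_or_lt_of_le hp with h | h
    · have : 0 < q := by linarith
      positivity
    · positivity
  obtain ⟨l, hl⟩ : ∃ l, l = Real.sqrt m := ⟨_, rfl⟩
  obtain ⟨k, hk⟩ : ∃ k, k = Real.sqrt D := ⟨_, rfl⟩
  obtain ⟨sb, hsb⟩ : ∃ t, t = Real.sqrt b := ⟨_, rfl⟩
  obtain ⟨sc, hsc⟩ : ∃ t, t = Real.sqrt c := ⟨_, rfl⟩
  have hll : l ^ 2 = m := by rw [hl, Real.sq_sqrt hm]
  have hkk : k ^ 2 = D := by rw [hk, Real.sq_sqrt hDp.le]
  have hbb : sb ^ 2 = b := by rw [hsb, Real.sq_sqrt hb.le]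
  have hcc : sc ^ 2 = c := by rw [hsc, Real.sq_sqrt hc.le]
  have l0 : 0 ≤ l := by rw [hl]; positivity
  have k0 : 0 < k := by rw [hk]; exact Real.sqrt_pos.2 hDp
  have b0 : 0 ≤ sb := by rw [hsb]; positivity
  have c0 : 0 ≤ sc := by rw [hsc]; positivity
  obtain ⟨m0, hm0⟩ : ∃ t, t = a * p + b * q := ⟨_, rfl⟩
  obtain ⟨m1, hm1⟩ : ∃ t, t = c * p + d * q := ⟨_, rfl⟩
  have n0 : 0 ≤ m0 := by rw [hm0]; positivity
  have n1 : 0 ≤ m1 := by rw [hm1]; positivity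
  have exa : (sb * l * q / k) ^ 2 = b * m * q ^ 2 / D := by
    rw [div_pow, mul_pow, mul_pow, hbb, hkk, hll]
  have eya : (sb * m1 / k) ^ 2 = b * m1 ^ 2 / D := by rw [div_pow, mul_pow, hbb, hkk]
  have exb : (sc * m0 / k) ^ 2 = c * m0 ^ 2 / D := by rw [div_pow, mul_pow, hcc, hkk]
  have eyb : (sc * l * p / k) ^ 2 = c * m * p ^ 2 / D := by
    rw [div_pow, mul_pow, mul_pow, hcc, hkk, hll]
  refine ⟨sb * l * q / k, sb * m1 / k, sc * m0 / k, sc * l * p / k, b * q * m1 / D,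
    c * p * m0 / D, by positivity, by positivity, by positivity, by positivity, by positivity,
    by positivity, ?_, ?_, ?_, ?_, ?_, ?_, ?_, ?_⟩
  · rw [exa, exb, ← add_div, div_eq_iff hDp.ne', hm0, hD, ← hdet]; ring
  · rw [eya, eyb, ← add_div, div_eq_iff hDp.ne', hm1, hD, ← hdet]; ring
  · rw [← hl, div_mul_div_comm, div_mul_div_comm, ← sq k, hkk, ← add_div, div_eq_iff hDp.ne',
      show sb * l * q * (sb * m1) + sc * m0 * (sc * l * p)
        = l * (sb ^ 2 * (q * m1) + sc ^ 2 * (m0 * p)) by ring, hbb, hcc, hm0, hm1, hD]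
    ring
  · rw [← add_div, div_eq_one_iff_eq hDp.ne', hm0, hm1, hD]; ring
  · rw [exa, eya]; field_simp
    rw [hm1, hD, ← hdet]
    linear_combination (q * c * p ^ 2 + q ^ 2 * p * d) * hac + (q ^ 2 * p * c + q ^ 3 * d) * hbd
  · rw [exb, eyb]; field_simp
    rw [hm0, hD, ← hdet]
    linear_combination (p ^ 2 * q * b + p ^ 3 * a) * hac + (p * b * q ^ 2 + p ^ 2 * q * a) * hbd
  · rw [eya]; field_simp
  · rw [exb]; field_simp

/-- The one-site inequality for every pair of parameters. -/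
theorem keyHyp_all {γ ν : ℝ} (hγ0 : 0 ≤ γ) (hγ1 : γ ≤ 1) (hν0 : 0 ≤ ν) (hν1 : ν ≤ 1) :
    KeyHyp γ ν := by
  rcases eq_or_lt_of_le hγ0 with h | hγ
  · rw [← h]; exact keyHyp_zero_gamma ν
  rcases eq_or_lt_of_le hν0 with h | hν
  · rw [← h]; exact keyHyp_zero hγ0 hγ1
  rcases eq_or_lt_of_le hν1 with h | hν'
  · have := keyHyp_mirror (keyHyp_zero hγ0 hγ1)
    rwa [sub_zero, ← h] at this
  intro n A C B hρ
  have hA' : A.PosSemidef := hρ.submatrix Sum.inl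
  have hB' : B.PosSemidef := hρ.submatrix Sum.inr
  have hp0 : 0 ≤ A.trace.re := (Complex.nonneg_iff.1 hA'.trace_nonneg).1
  have hq0 : 0 ≤ B.trace.re := (Complex.nonneg_iff.1 hB'.trace_nonneg).1
  rcases eq_or_lt_of_le (add_nonneg hp0 hq0) with hT | hT
  · have htr : (fromBlocks A C Cᴴ B).trace = 0 := by
      refine Complex.ext ?_ (Complex.nonneg_iff.1 hρ.trace_nonneg).2.symm
      rw [trace_blocks, Complex.add_re, Complex.zero_re]; exact hT.symm
    have h0 : fromBlocks A C Cᴴ B = fromBlocks 0 0 0 0 := by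
      rw [hρ.trace_eq_zero_iff.1 htr]; exact fromBlocks_zero.symm
    obtain ⟨eA, eC, -, eB⟩ := fromBlocks_inj.1 h0
    rw [eA, eB, eC]
    simp [eSum_zero]
  have hgn : γ * ν ≤ 1 * ν := mul_le_mul_of_nonneg_right hγ1 hν.le
  have hgn' : γ * (1 - ν) ≤ 1 * (1 - ν) := mul_le_mul_of_nonneg_right hγ1 (by linarith)
  obtain ⟨xa, ya, xb, yb, r1, r2, hxa, hya, hxb, hyb, hr10, hr20, ea, ed, el, hr, s1, s2, p1, p2⟩ :=
    split_scalars (a := 1 - γ * ν) (b := γ * (1 - ν)) (c := γ * ν) (d := 1 - γ * (1 - ν))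
      (m := 1 - γ) (mul_pos hγ (by linarith)) (mul_pos hγ hν) (by linarith) (by linarith)
      (by linarith) (by ring) (by ring) (by ring) hp0 hq0 hT
  have hbp : 0 < γ * (1 - ν) := mul_pos hγ (by linarith)
  have hcp : 0 < γ * ν := mul_pos hγ hν
  have hsplit : fromBlocks (((1 - γ * ν : ℝ) : ℂ) • A + ((γ * (1 - ν) : ℝ) : ℂ) • B)
        (((Real.sqrt (1 - γ) : ℝ) : ℂ) • C) (((Real.sqrt (1 - γ) : ℝ) : ℂ) • Cᴴ)
        (((γ * ν : ℝ) : ℂ) • A + ((1 - γ * (1 - ν) : ℝ) : ℂ) • B)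
      = compMat xa ya (γ * (1 - ν)) A C B + compMat' xb yb (γ * ν) A C B := by
    rw [compMat, compMat', fromBlocks_add, ← ea, ← el, ← ed]
    simp only [Complex.ofReal_add, add_smul]
    congr 1 <;> abel
  rw [hsplit]
  have h1 := comp_bound hxa hya hbp hρ
  have h2 := comp'_bound hxb hyb hcp hρ
  have hc' := eSum_add_le (comp_psd (x := xa) (y := ya) hbp.le hρ)
    (comp'_psd (x := xb) (y := yb) hcp.le hρ)
  have t1 : (compMat xa ya (γ * (1 - ν)) A C B).trace.re = r1 * (A.trace.re + B.trace.re) := by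
    rw [compMat, trace_blocks, ← s1]
    simp [Matrix.trace_add, Matrix.trace_smul, sq]
  have t2 : (compMat' xb yb (γ * ν) A C B).trace.re = r2 * (A.trace.re + B.trace.re) := by
    rw [compMat', trace_blocks, ← s2]
    simp [Matrix.trace_add, Matrix.trace_smul, sq]
    ring
  set p := A.trace.re
  set q := B.trace.re
  have hod : ((1 - γ * ν) * p + γ * (1 - ν) * q) * (γ * ν * p + (1 - γ * (1 - ν)) * q)
      - (1 - γ) * (p * q) = (p + q) ^ 2 * outDet γ ν (q / (p + q)) := by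
    rw [outDet, tOut]; field_simp; ring
  rw [hod, ← mul_assoc (r1 ^ 2)] at p1
  rw [hod, ← mul_assoc (r2 ^ 2)] at p2
  rw [pair_entropy s1 p1 hr10 hT.le rfl] at h1
  rw [pair_entropy s2 p2 hr20 hT.le rfl] at h2
  rw [t1, t2, show r1 * (p + q) + r2 * (p + q) = p + q by rw [← add_mul, hr, one_mul]] at hc'
  have cA : xa ^ 2 + (xb ^ 2 + γ * ν) = 1 := by linarith
  have cB : (ya ^ 2 + γ * (1 - ν)) + yb ^ 2 = 1 := by linarith
  rw [gOut]
  linear_combination h1 + h2 + hc' + (negMulLog p - eSum A) * cA + (negMulLog q - eSum B) * cB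
    + (-((p + q) * binEntropy ((1 + Real.sqrt (1 - 4 * outDet γ ν (q / (p + q)))) / 2))) * hr

/-- Convexity of the output entropy of pure states as a function of the population. -/
lemma gOut_convex {γ ν : ℝ} (hγ0 : 0 ≤ γ) (hγ1 : γ ≤ 1) (hν0 : 0 ≤ ν) (hν1 : ν ≤ 1) :
    ConvexOn ℝ (Set.Icc 0 1) (gOut γ ν) := by
  set α := (1 - γ * ν) * (γ * ν) with hα
  set β := γ * (1 - ν) * (γ * ν) with hβ
  set δ := γ * (1 - ν) * (1 - γ * (1 - ν)) with hδ
  have hgn : γ * ν ≤ 1 := mul_le_one₀ hγ1 hν0 hν1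
  have hgn' : γ * (1 - ν) ≤ 1 := mul_le_one₀ hγ1 (by linarith) (by linarith)
  have hbn : 0 ≤ γ * (1 - ν) := mul_nonneg hγ0 (by linarith)
  have hcn : 0 ≤ γ * ν := mul_nonneg hγ0 hν0
  have hαn : 0 ≤ α := mul_nonneg (by linarith) hcn
  have hβn : 0 ≤ β := mul_nonneg hbn hcn
  have hδn : 0 ≤ δ := mul_nonneg hbn (by linarith)
  have hβd : β ^ 2 ≤ α * δ := by
    have e : α * δ - β ^ 2 = β * (1 - γ) := by rw [hα, hβ, hδ]; ring
    nlinarith [mul_nonneg hβn (by linarith : 0 ≤ 1 - γ)]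
  set Q : ℝ → ℝ := fun q => α * (1 - q) ^ 2 + δ * q ^ 2 + 2 * β * ((1 - q) * q) with hQ
  have hQe : ∀ q, Q q = outDet γ ν q := fun q => by
    simp only [hQ, hα, hβ, hδ, outDet, tOut]; ring
  have hQn : ∀ q ∈ Set.Icc (0 : ℝ) 1, 0 ≤ Q q := fun q hq => by
    have := mul_nonneg (sub_nonneg.2 hq.2) hq.1
    positivity
  have hQ4 : ∀ q ∈ Set.Icc (0 : ℝ) 1, 4 * Q q ≤ 1 := fun q hq => by
    rw [hQe, outDet]
    nlinarith [sq_nonneg (2 * tOut γ ν q - 1),
      mul_nonneg (sub_nonneg.2 hγ1) (mul_nonneg hq.1 (sub_nonneg.2 hq.2))]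
  set cf : ℝ → ℝ := fun q => 2 * Real.sqrt (Q q) with hcf
  have hmem : ∀ q ∈ Set.Icc (0 : ℝ) 1, cf q ∈ Set.Icc (0 : ℝ) 1 := fun q hq => by
    refine ⟨by positivity, ?_⟩
    have : Real.sqrt (Q q) ≤ 1 / 2 := by
      rw [Real.sqrt_le_iff]; constructor
      · norm_num
      · linarith [hQ4 q hq]
    simp only [hcf]; linarith
  have hge : ∀ q ∈ Set.Icc (0 : ℝ) 1, gOut γ ν q = concEnt (cf q) := fun q hq => by
    have e : cf q ^ 2 = 4 * outDet γ ν q := by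
      rw [hcf, mul_pow, Real.sq_sqrt (hQn q hq), hQe]; norm_num
    rw [gOut, concEnt, e]
  have hmono : MonotoneOn concEnt (Set.Icc 0 1) := by
    intro x hx y hy hxy
    have h1 : Real.sqrt (1 - y ^ 2) ≤ Real.sqrt (1 - x ^ 2) :=
      Real.sqrt_le_sqrt (by nlinarith [hx.1])
    have h2 : Real.sqrt (1 - x ^ 2) ≤ 1 :=
      Real.sqrt_le_one.2 (by nlinarith [hx.1])
    have h0 := Real.sqrt_nonneg (1 - y ^ 2)
    exact binEntropy_strictAntiOn.antitoneOn ⟨by norm_num; linarith, by linarith⟩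
      ⟨by norm_num; linarith, by linarith⟩ (by linarith)
  refine ⟨convex_Icc 0 1, fun x hx y hy u v hu hv huv => ?_⟩
  have hm := convex_Icc (0 : ℝ) 1 hx hy hu hv huv
  have hcfc : cf (u * x + v * y) ≤ u * cf x + v * cf y := by
    have hx' := Real.sq_sqrt (hQn x hx)
    have hy' := Real.sq_sqrt (hQn y hy)
    set R := α * ((1 - x) * (1 - y)) + δ * (x * y) + β * ((1 - x) * y + x * (1 - y)) with hR
    have hR0 : 0 ≤ R := by
      have := sub_nonneg.2 hx.2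
      have := sub_nonneg.2 hy.2
      have := hx.1
      have := hy.1
      positivity
    have hR2 : R ≤ Real.sqrt (Q x) * Real.sqrt (Q y) := by
      rw [← Real.sqrt_mul (hQn x hx)]
      refine Real.le_sqrt_of_sq_le ?_
      have e : Q x * Q y - R ^ 2
          = (α * δ - β ^ 2) * ((1 - x) * y - x * (1 - y)) ^ 2 := by
        simp only [hQ, hR]; ring
      nlinarith [mul_nonneg (sub_nonneg.2 hβd) (sq_nonneg ((1 - x) * y - x * (1 - y)))]
    have e : Q (u * x + v * y) = u ^ 2 * Q x + v ^ 2 * Q y + 2 * (u * v) * R := by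
      have hv' : v = 1 - u := by linarith
      simp only [hQ, hR, hv']; ring
    have : Real.sqrt (Q (u * x + v * y)) ≤ u * Real.sqrt (Q x) + v * Real.sqrt (Q y) := by
      rw [Real.sqrt_le_iff]
      refine ⟨by positivity, ?_⟩
      rw [e]
      nlinarith [mul_le_mul_of_nonneg_left hR2 (mul_nonneg hu hv)]
    simp only [hcf]; linarith
  simp only [smul_eq_mul] at hm ⊢
  rw [hge _ hm, hge x hx, hge y hy]
  have hcx := hmem x hx
  have hcy := hmem y hy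
  have hmc := convex_Icc (0 : ℝ) 1 hcx hcy hu hv huv
  simp only [smul_eq_mul] at hmc
  refine (hmono (hmem _ hm) hmc hcfc).trans ?_
  simpa only [smul_eq_mul] using concEnt_convex.2 hcx hcy hu hv huv

/-- Additivity for every pair of parameters. -/
theorem gadc_additivity {γ ν : ℝ} (hγ0 : 0 ≤ γ) (hγ1 : γ ≤ 1) (hν0 : 0 ≤ ν) (hν1 : ν ≤ 1) :
    ∃ q ∈ Set.Icc (0 : ℝ) 1, IsMaxOn (capFun γ ν) (Set.Icc 0 1) q ∧
      (∀ n : ℕ, IsGreatest (holevoValues γ ν n) (n * (capFun γ ν q / Real.log 2))) ∧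
      (∀ n : ℕ, holevoCap γ ν n = n * holevoCap γ ν 1) ∧
      holevoCap γ ν 1 = capFun γ ν q / Real.log 2 ∧
      classicalCapacity γ ν = holevoCap γ ν 1 :=
  additivity hγ0 hγ1 hν0 hν1 (keyHyp_all hγ0 hγ1 hν0 hν1) (gOut_convex hγ0 hγ1 hν0 hν1)

end Vale.Agent.P358
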