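import Vale.Agent.P358.DetIneq

/-!
Pinching: diagonalising both diagonal blocks can only decrease rotLog for a diagonal edge.
-/

namespace Vale.Agent.P358

open Matrix
open scoped ComplexOrder Matrix

variable {ι : Type*} [Fintype ι] [DecidableEq ι]

lemma posDef_blocks {κ : Type*} [Fintype κ] [DecidableEq κ] {P : Matrix ι ι ℂ} {Q : Matrix κ κ ℂ}
    (hP : P.PosDef) (hQ : Q.PosDef) : (fromBlocks P 0 0 Q).PosDef := by
  obtain ⟨S, hS, rfl⟩ := exists_factor hP
  obtain ⟨T, hT, rfl⟩ := exists_factor hQ
  have hu : IsUnit (fromBlocks S 0 0 T) := by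
    rw [Matrix.isUnit_iff_isUnit_det, det_fromBlocks_zero₁₂]
    exact ((Matrix.isUnit_iff_isUnit_det _).1 hS).mul ((Matrix.isUnit_iff_isUnit_det _).1 hT)
  have e : fromBlocks (Sᴴ * S) 0 0 (Tᴴ * T)
      = (fromBlocks S 0 0 T)ᴴ * 1 * fromBlocks S 0 0 T := by
    simp [fromBlocks_conjTranspose, fromBlocks_multiply]
  rw [e]
  exact PosDef.one.conjTranspose_mul_mul_same (Matrix.mulVec_injective_of_isUnit hu)

open Classical in
/-- Set to zero the off-diagonal entries of rows and columns in S. -/
noncomputable def pinchOn (S : Finset ι) (P : Matrix ι ι ℂ) : Matrix ι ι ℂ :=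
  fun i j => if i = j ∨ (i ∉ S ∧ j ∉ S) then P i j else 0

/-- The sign flip of coordinate k. -/
def flipVec (k : ι) : ι → ℂ := fun i => if i = k then -1 else 1

/-- The Hermitian edge with real diagonal entries t. -/
def edge (t : ι → ℝ) : Matrix (ι ⊕ ι) (ι ⊕ ι) ℂ :=
  fromBlocks 0 (diagonal fun i => (t i : ℂ)) (diagonal fun i => (t i : ℂ)) 0

lemma edge_isHermitian (t : ι → ℝ) : (edge t).IsHermitian := by
  refine Matrix.IsHermitian.fromBlocks (isHermitian_zero) ?_ isHermitian_zero
  ext i j
  by_cases h : i = j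
  · subst h; simp
  · simp [h, Ne.symm h]

lemma pinchOn_step {S : Finset ι} {k : ι} (hk : k ∉ S) (P : Matrix ι ι ℂ) :
    pinchOn (insert k S) P = (1 / 2 : ℂ) • (pinchOn S P
      + diagonal (flipVec k) * pinchOn S P * diagonal (flipVec k)) := by
  ext i j
  simp only [Matrix.smul_apply, Matrix.add_apply, Matrix.mul_diagonal, Matrix.diagonal_mul,
    pinchOn, flipVec, Finset.mem_insert, smul_eq_mul]
  by_cases hij : i = j
  · subst hij
    by_cases hi : i = k <;> simp [hi] <;> ring
  · by_cases hi : i = k
    · subst hi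
      have : j ≠ i := fun e => hij e.symm
      by_cases hj : j ∈ S <;> simp [hij, hk, hj, this]
    · by_cases hj : j = k
      · subst hj
        by_cases hi' : i ∈ S <;> simp [hij, hk, hi', hi]
      · by_cases h2 : i ∉ S ∧ j ∉ S <;> simp [hij, hi, hj, h2] <;> ring

lemma pinch_all (P : Matrix ι ι ℂ) : pinchOn Finset.univ P = diagonal fun i => P i i := by
  ext i j
  by_cases h : i = j
  · subst h; simp [pinchOn]
  · simp [pinchOn, h]

lemma pinch_none (P : Matrix ι ι ℂ) : pinchOn ∅ P = P := by
  ext i j; simp [pinchOn]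

lemma rotLog_pinch (t : ι → ℝ) {P P' : Matrix ι ι ℂ} (hP : P.PosDef) (hP' : P'.PosDef)
    (S : Finset ι) :
    (fromBlocks (pinchOn S P) 0 0 (pinchOn S P')).PosDef ∧
      rotLog (edge t) (fromBlocks (pinchOn S P) 0 0 (pinchOn S P'))
        ≤ rotLog (edge t) (fromBlocks P 0 0 P') := by
  classical
  induction S using Finset.induction_on with
  | empty =>
    rw [pinch_none, pinch_none]
    exact ⟨posDef_blocks hP hP', le_rfl⟩
  | insert k S hk ih =>
    set H := fromBlocks (pinchOn S P) 0 0 (pinchOn S P') with hH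
    set D : Matrix (ι ⊕ ι) (ι ⊕ ι) ℂ :=
      fromBlocks (diagonal (flipVec k)) 0 0 (diagonal (flipVec k)) with hD
    have hd : diagonal (flipVec k) * diagonal (flipVec k) = (1 : Matrix ι ι ℂ) := by
      rw [diagonal_mul_diagonal, ← diagonal_one]
      congr 1; funext i; by_cases h : i = k <;> simp [flipVec, h]
    have hD1 : D * D = 1 := by simp [hD, fromBlocks_multiply, hd, ← fromBlocks_one, -diagonal_mul_diagonal, -fromBlocks_diagonal]
    have hDh : Dᴴ = D := by
      have : (diagonal (flipVec k))ᴴ = diagonal (flipVec k) := by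
        rw [diagonal_conjTranspose]; congr 1; funext i; by_cases h : i = k <;> simp [flipVec, h]
      simp [hD, fromBlocks_conjTranspose, this, -diagonal_conjTranspose, -fromBlocks_diagonal]
    have hDK : D * edge t * D = edge t := by
      have : diagonal (flipVec k) * diagonal (fun i => (t i : ℂ)) * diagonal (flipVec k)
          = diagonal (fun i => (t i : ℂ)) := by
        rw [diagonal_mul_diagonal, diagonal_mul_diagonal]
        congr 1; funext i; by_cases h : i = k <;> simp [flipVec, h]
      simp [hD, edge, fromBlocks_multiply, this, -diagonal_mul_diagonal, -fromBlocks_diagonal]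
    have hDu : IsUnit D := IsUnit.of_mul_eq_one (b := D) hD1
    have h2 : (D * H * D).PosDef := by
      have := ih.1.conjTranspose_mul_mul_same (Matrix.mulVec_injective_of_isUnit hDu)
      rwa [hDh] at this
    have hflip : rotLog (edge t) (D * H * D) = rotLog (edge t) H := by
      have e : D * H * D + Complex.I • edge t = D * (H + Complex.I • edge t) * D := by
        rw [Matrix.mul_add, Matrix.add_mul, Matrix.mul_smul, Matrix.smul_mul, hDK]
      have hdd : ∀ X, (D * X * D).det = X.det := fun X => by
        rw [det_mul, det_mul, mul_right_comm, ← det_mul, hD1, det_one, one_mul]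
      simp only [rotLog, e, hdd]
    have e : fromBlocks (pinchOn (insert k S) P) 0 0 (pinchOn (insert k S) P')
        = (1 / 2 : ℂ) • (H + D * H * D) := by
      simp [hH, hD, pinchOn_step hk, fromBlocks_multiply, fromBlocks_smul, fromBlocks_add,
        -diagonal_mul_diagonal, -fromBlocks_diagonal, smul_add]
    rw [e]
    refine ⟨(ih.1.add h2).smul ?_, ?_⟩
    · rw [show (1 / 2 : ℂ) = ((1 / 2 : ℝ) : ℂ) by simp]
      exact Complex.zero_lt_real.2 (by norm_num)
    · have h := rotLog_midpoint (edge_isHermitian t) ih.1 h2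
      rw [hflip] at h
      linarith [ih.2]

end Vale.Agent.P358
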