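import Vale.Agent.P358.Capacity
import Vale.Agent.P358.Key0

/-!
Concavity of the unnormalized entropy and the entropy bound for one filtered damping component.
-/

namespace Vale.Agent.P358

open Matrix Real
open scoped ComplexOrder Matrix

section Concave

variable {ι : Type*} [Fintype ι] [DecidableEq ι]

omit [DecidableEq ι] in
lemma negMulLog_sum_split {x y : ι → ℝ} (hx : ∀ i, 0 ≤ x i) (hy : ∀ i, 0 ≤ y i) :
    ∑ i, negMulLog (x i) + ∑ i, negMulLog (y i) + negMulLog (∑ i, x i + ∑ i, y i)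
        - negMulLog (∑ i, x i) - negMulLog (∑ i, y i)
      ≤ ∑ i, negMulLog (x i + y i) := by
  set X := ∑ i, x i
  set Y := ∑ i, y i
  have hX : 0 ≤ X := Finset.sum_nonneg fun i _ => hx i
  have hY : 0 ≤ Y := Finset.sum_nonneg fun i _ => hy i
  have hs := entropy_split hX hY
  have key : ∑ i, (x i + y i) * binEntropy (y i / (x i + y i))
      ≤ (X + Y) * binEntropy (Y / (X + Y)) := by
    rcases eq_or_lt_of_le (add_nonneg hX hY) with h | h
    · have hz : ∀ i, x i + y i = 0 := fun i => by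
        have h1 := Finset.single_le_sum (fun j _ => hx j) (Finset.mem_univ i)
        have h2 := Finset.single_le_sum (fun j _ => hy j) (Finset.mem_univ i)
        linarith [hx i, hy i]
      simp [hz, ← h]
    have hw : ∑ i, (x i + y i) / (X + Y) = 1 := by
      rw [← Finset.sum_div, Finset.sum_add_distrib, div_self h.ne']
    have hmem : ∀ i ∈ (Finset.univ : Finset ι), y i / (x i + y i) ∈ Set.Icc (0 : ℝ) 1 := fun i _ =>
      ⟨div_nonneg (hy i) (add_nonneg (hx i) (hy i)),
        div_le_one_of_le₀ (by linarith [hx i]) (add_nonneg (hx i) (hy i))⟩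
    have hc := strictConcave_binEntropy.concaveOn.le_map_sum
      (fun i _ => div_nonneg (add_nonneg (hx i) (hy i)) h.le) hw hmem
    have e : ∑ i, ((x i + y i) / (X + Y)) • (y i / (x i + y i)) = Y / (X + Y) := by
      rw [show Y / (X + Y) = ∑ i, y i / (X + Y) from Finset.sum_div ..]
      refine Finset.sum_congr rfl fun i _ => ?_
      rcases eq_or_lt_of_le (add_nonneg (hx i) (hy i)) with h' | h'
      · have : y i = 0 := by linarith [hx i, hy i]
        simp [this]
      · rw [smul_eq_mul]; field_simp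
    rw [e] at hc
    refine le_trans (le_of_eq ?_) (mul_le_mul_of_nonneg_left hc h.le)
    rw [Finset.mul_sum]
    refine Finset.sum_congr rfl fun i _ => ?_
    rw [smul_eq_mul]; field_simp
  have hsum : ∑ i, negMulLog (x i) + ∑ i, negMulLog (y i)
      = ∑ i, negMulLog (x i + y i) + ∑ i, (x i + y i) * binEntropy (y i / (x i + y i)) := by
    rw [← Finset.sum_add_distrib, ← Finset.sum_add_distrib]
    exact Finset.sum_congr rfl fun i _ => entropy_split (hx i) (hy i)
  linarith

/-- Concavity of the entropy. -/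
lemma eSum_add_le {P Q : Matrix ι ι ℂ} (hP : P.PosSemidef) (hQ : Q.PosSemidef) :
    eSum P + eSum Q + negMulLog (P.trace.re + Q.trace.re) - negMulLog P.trace.re
      - negMulLog Q.trace.re ≤ eSum (P + Q) := by
  have hS := hP.add hQ
  set U : Matrix ι ι ℂ := (hS.isHermitian.eigenvectorUnitary : Matrix ι ι ℂ) with hUdef
  have hU : U * Uᴴ = 1 := Unitary.coe_mul_star_self hS.isHermitian.eigenvectorUnitary
  have hU' : Uᴴ * U = 1 := Unitary.coe_star_mul_self hS.isHermitian.eigenvectorUnitary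
  have hUc : Uᴴ * Uᴴᴴ = 1 := by rw [conjTranspose_conjTranspose]; exact hU'
  set P' := Uᴴ * P * U with hP'
  set Q' := Uᴴ * Q * U with hQ'
  have hPp : P'.PosSemidef := hP.conjTranspose_mul_mul_same U
  have hQp : Q'.PosSemidef := hQ.conjTranspose_mul_mul_same U
  have hd : P' + Q' = diagonal fun i => ((hS.isHermitian.eigenvalues i : ℝ) : ℂ) := by
    rw [hP', hQ', ← Matrix.add_mul, ← Matrix.mul_add]
    conv_lhs => rw [spectral_form hS.isHermitian]
    simp only [← hUdef, ← Matrix.mul_assoc, hU', Matrix.one_mul]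
    rw [Matrix.mul_assoc, hU', Matrix.mul_one]
  have heP : eSum P' = eSum P := by
    have := eSum_unitary hUc hP.isHermitian
    rwa [conjTranspose_conjTranspose] at this
  have heQ : eSum Q' = eSum Q := by
    have := eSum_unitary hUc hQ.isHermitian
    rwa [conjTranspose_conjTranspose] at this
  have htP : P'.trace = P.trace := by rw [hP', Matrix.trace_mul_cycle, hU, Matrix.one_mul]
  have htQ : Q'.trace = Q.trace := by rw [hQ', Matrix.trace_mul_cycle, hU, Matrix.one_mul]
  have hw : ∀ i, hS.isHermitian.eigenvalues i = (P' i i).re + (Q' i i).re := fun i => by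
    have := congrArg (fun M : Matrix ι ι ℂ => (M i i).re) hd
    simpa using this.symm
  have h := negMulLog_sum_split (x := fun i => (P' i i).re) (y := fun i => (Q' i i).re)
    (fun i => (Complex.nonneg_iff.1 hPp.diag_nonneg).1)
    (fun i => (Complex.nonneg_iff.1 hQp.diag_nonneg).1)
  have sP : ∑ i, (P' i i).re = P.trace.re := by rw [← htP, Matrix.trace, Complex.re_sum]; rfl
  have sQ : ∑ i, (Q' i i).re = Q.trace.re := by rw [← htQ, Matrix.trace, Complex.re_sum]; rfl
  rw [sP, sQ] at h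
  have h1 := eSum_le_diag hPp
  have h2 := eSum_le_diag hQp
  have e : eSum (P + Q) = ∑ i, negMulLog ((P' i i).re + (Q' i i).re) := by
    rw [eSum_def hS.isHermitian]; simp only [hw]
  rw [e]
  linarith

end Concave

section Component

variable {ι : Type*} [Fintype ι] [DecidableEq ι]

omit [Fintype ι] [DecidableEq ι] in
lemma sum_swap_psd {A C B : Matrix ι ι ℂ} (hρ : (fromBlocks A C Cᴴ B).PosSemidef) :
    (fromBlocks B Cᴴ C A).PosSemidef := by
  have := hρ.submatrix (Equiv.sumComm ι ι)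
  rwa [Equiv.sumComm_apply, fromBlocks_submatrix_sum_swap_sum_swap] at this

/-- The filtered damping component. -/
noncomputable def compMat (x y b : ℝ) (A C B : Matrix ι ι ℂ) : Matrix (ι ⊕ ι) (ι ⊕ ι) ℂ :=
  fromBlocks (((x ^ 2 : ℝ) : ℂ) • A + (b : ℂ) • B) (((x * y : ℝ) : ℂ) • C)
    (((x * y : ℝ) : ℂ) • Cᴴ) (((y ^ 2 : ℝ) : ℂ) • B)

lemma comp_psd {x y b : ℝ} (hb : 0 ≤ b) {A C B : Matrix ι ι ℂ}
    (hρ : (fromBlocks A C Cᴴ B).PosSemidef) : (compMat x y b A C B).PosSemidef := by
  set D : Matrix (ι ⊕ ι) (ι ⊕ ι) ℂ := fromBlocks ((x : ℂ) • 1) 0 0 ((y : ℂ) • 1) with hD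
  set F : Matrix (ι ⊕ ι) (ι ⊕ ι) ℂ := fromBlocks 0 ((Real.sqrt b : ℂ) • 1) 0 0 with hF
  have h := (hρ.mul_mul_conjTranspose_same D).add (hρ.mul_mul_conjTranspose_same F)
  convert h using 1
  rw [hD, hF, compMat, fromBlocks_conjTranspose, fromBlocks_conjTranspose]
  simp [fromBlocks_multiply, fromBlocks_add, smul_smul, ← Complex.ofReal_mul,
    Real.mul_self_sqrt hb, sq, mul_comm]

/-- Entropy bound for one component. -/
theorem comp_bound {x y b : ℝ} (hx : 0 ≤ x) (hy : 0 ≤ y) (hb : 0 < b) {A C B : Matrix ι ι ℂ}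
    (hρ : (fromBlocks A C Cᴴ B).PosSemidef) :
    x ^ 2 * eSum A + (y ^ 2 + b) * eSum B
      + (negMulLog (muP (x ^ 2 * A.trace.re) (b * B.trace.re) (y ^ 2 * B.trace.re))
        + negMulLog (muM (x ^ 2 * A.trace.re) (b * B.trace.re) (y ^ 2 * B.trace.re))
        - x ^ 2 * negMulLog A.trace.re - (y ^ 2 + b) * negMulLog B.trace.re)
      ≤ eSum (compMat x y b A C B) := by
  have hA : A.IsHermitian := (hρ.submatrix Sum.inl).isHermitian
  have hB : B.IsHermitian := (hρ.submatrix Sum.inr).isHermitian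
  set w := Real.sqrt (y ^ 2 + b) with hw
  have hpos : 0 < y ^ 2 + b := by positivity
  have hww : w * w = y ^ 2 + b := Real.mul_self_sqrt hpos.le
  set D : Matrix (ι ⊕ ι) (ι ⊕ ι) ℂ := fromBlocks ((x : ℂ) • 1) 0 0 ((w : ℂ) • 1) with hD
  have h' : (fromBlocks (((x ^ 2 : ℝ) : ℂ) • A) (((x * w : ℝ) : ℂ) • C)
      (((x * w : ℝ) : ℂ) • C)ᴴ (((y ^ 2 + b : ℝ) : ℂ) • B)).PosSemidef := by
    convert hρ.mul_mul_conjTranspose_same D using 1
    rw [hD, fromBlocks_conjTranspose, fromBlocks_multiply, fromBlocks_multiply, ← hww, sq]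
    simp [smul_smul, ← Complex.ofReal_mul, mul_comm]
  set δ := b / (y ^ 2 + b) with hδ
  have hδ0 : 0 ≤ δ := div_nonneg hb.le hpos.le
  have hδ1 : δ ≤ 1 := (div_le_one hpos).2 (by nlinarith)
  have h := key_damp hδ0 hδ1 h'
  have e1 : δ * (y ^ 2 + b) = b := div_mul_cancel₀ _ hpos.ne'
  have e2 : (1 - δ) * (y ^ 2 + b) = y ^ 2 := by rw [sub_mul, e1]; ring
  have e3 : Real.sqrt (1 - δ) * (x * w) = x * y := by
    have : Real.sqrt (1 - δ) * w = y := by
      rw [hw, ← Real.sqrt_mul (by linarith), e2, Real.sqrt_sq hy]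
    linear_combination x * this
  have em : dampMat δ (((x ^ 2 : ℝ) : ℂ) • A) (((x * w : ℝ) : ℂ) • C) (((y ^ 2 + b : ℝ) : ℂ) • B)
      = compMat x y b A C B := by
    rw [dampMat, compMat, conjTranspose_smul]
    simp only [smul_smul, Complex.star_def, Complex.conj_ofReal, ← Complex.ofReal_mul, e1, e2, e3]
  rw [em, eSum_real_smul hA, eSum_real_smul hB] at h
  simp only [Matrix.trace_smul, smul_eq_mul, Complex.mul_re, Complex.ofReal_re, Complex.ofReal_im,
    zero_mul, sub_zero] at h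
  rw [show δ * ((y ^ 2 + b) * B.trace.re) = b * B.trace.re by rw [← mul_assoc, e1],
    show (1 - δ) * ((y ^ 2 + b) * B.trace.re) = y ^ 2 * B.trace.re by rw [← mul_assoc, e2],
    negMulLog_mul, negMulLog_mul] at h
  linarith

/-- The mirrored component. -/
noncomputable def compMat' (x y c : ℝ) (A C B : Matrix ι ι ℂ) : Matrix (ι ⊕ ι) (ι ⊕ ι) ℂ :=
  fromBlocks (((x ^ 2 : ℝ) : ℂ) • A) (((x * y : ℝ) : ℂ) • C)
    (((x * y : ℝ) : ℂ) • Cᴴ) (((y ^ 2 : ℝ) : ℂ) • B + (c : ℂ) • A)

omit [Fintype ι] [DecidableEq ι] in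
lemma comp'_eq (x y c : ℝ) (A C B : Matrix ι ι ℂ) :
    compMat' x y c A C B
      = (compMat y x c B Cᴴ A).submatrix (Equiv.sumComm ι ι).symm (Equiv.sumComm ι ι).symm := by
  rw [Equiv.sumComm_symm, Equiv.sumComm_apply, compMat, fromBlocks_submatrix_sum_swap_sum_swap,
    compMat', conjTranspose_conjTranspose, mul_comm y x]

lemma comp'_psd {x y c : ℝ} (hc : 0 ≤ c) {A C B : Matrix ι ι ℂ}
    (hρ : (fromBlocks A C Cᴴ B).PosSemidef) : (compMat' x y c A C B).PosSemidef := by
  rw [comp'_eq]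
  refine (comp_psd hc ?_).submatrix _
  rw [conjTranspose_conjTranspose]; exact sum_swap_psd hρ

theorem comp'_bound {x y c : ℝ} (hx : 0 ≤ x) (hy : 0 ≤ y) (hc : 0 < c) {A C B : Matrix ι ι ℂ}
    (hρ : (fromBlocks A C Cᴴ B).PosSemidef) :
    (x ^ 2 + c) * eSum A + y ^ 2 * eSum B
      + (negMulLog (muP (y ^ 2 * B.trace.re) (c * A.trace.re) (x ^ 2 * A.trace.re))
        + negMulLog (muM (y ^ 2 * B.trace.re) (c * A.trace.re) (x ^ 2 * A.trace.re))
        - (x ^ 2 + c) * negMulLog A.trace.re - y ^ 2 * negMulLog B.trace.re)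
      ≤ eSum (compMat' x y c A C B) := by
  have hs : (fromBlocks B Cᴴ Cᴴᴴ A).PosSemidef := by
    rw [conjTranspose_conjTranspose]; exact sum_swap_psd hρ
  have h := comp_bound hy hx hc hs
  rw [comp'_eq, eSum_reindex _ (comp_psd hc.le hs).isHermitian]
  linarith

end Component

end Vale.Agent.P358
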